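import Mathlib

/-! Diophantine approximation inside rational polyhedra and polytopes. -/

namespace P277Z.Cvx

open Set Finset Filter Topology

/-- all coordinates are integers -/
def IsInt {ι : Type*} (x : ι → ℝ) : Prop := ∀ i, ∃ z : ℤ, x i = z

/-- all coordinates are rational -/
def IsRat {ι : Type*} (x : ι → ℝ) : Prop := ∀ i, ∃ q : ℚ, x i = q

/-- convex hull of finitely many rational points -/
def RatPolytope {ι : Type*} (P : Set (ι → ℝ)) : Prop :=
  ∃ T : Set (ι → ℝ), T.Finite ∧ (∀ x ∈ T, IsRat x) ∧ P = convexHull ℝ T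

/-- intersection of finitely many rational half spaces -/
def RatPolyhedron {ι : Type*} [Fintype ι] (P : Set (ι → ℝ)) : Prop :=
  ∃ H : Set ((ι → ℝ) × ℝ), H.Finite ∧ (∀ h ∈ H, IsRat h.1 ∧ ∃ q : ℚ, h.2 = q) ∧
    P = {x | ∀ h ∈ H, h.1 ⬝ᵥ x ≤ h.2}

/-- the good approximations: `m • y` integral for some `m > 0` and `‖x - y‖ < ε / (k m)` -/
def Appr {ι : Type*} [Fintype ι] (x : ι → ℝ) (k : ℕ) (ε : ℝ) : Set (ι → ℝ) :=
  {y | ∃ m : ℕ, 0 < m ∧ IsInt ((m : ℝ) • y) ∧ ‖x - y‖ < ε / ((k * m : ℕ) : ℝ)}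

variable {ι : Type*}

theorem IsInt.isRat {x : ι → ℝ} (h : IsInt x) : IsRat x := fun i => by
  obtain ⟨z, hz⟩ := h i
  exact ⟨z, by simp [hz]⟩

theorem IsInt.add {x y : ι → ℝ} (hx : IsInt x) (hy : IsInt y) : IsInt (x + y) := fun i => by
  obtain ⟨a, ha⟩ := hx i
  obtain ⟨b, hb⟩ := hy i
  exact ⟨a + b, by simp [ha, hb]⟩

theorem IsInt.neg {x : ι → ℝ} (hx : IsInt x) : IsInt (-x) := fun i => by
  obtain ⟨a, ha⟩ := hx i
  exact ⟨-a, by simp [ha]⟩

theorem IsInt.sub {x y : ι → ℝ} (hx : IsInt x) (hy : IsInt y) : IsInt (x - y) := by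
  rw [sub_eq_add_neg]; exact hx.add hy.neg

theorem IsInt.zsmul {x : ι → ℝ} (hx : IsInt x) (z : ℤ) : IsInt ((z : ℝ) • x) := fun i => by
  obtain ⟨a, ha⟩ := hx i
  exact ⟨z * a, by simp [ha]⟩

theorem IsInt.nsmul {x : ι → ℝ} (hx : IsInt x) (n : ℕ) : IsInt ((n : ℝ) • x) := by
  simpa using hx.zsmul (n : ℤ)

theorem isInt_zero : IsInt (0 : ι → ℝ) := fun _ => ⟨0, by simp⟩

theorem isInt_sum {κ : Type*} (s : Finset κ) {f : κ → ι → ℝ} (h : ∀ j ∈ s, IsInt (f j)) :
    IsInt (∑ j ∈ s, f j) :=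
  Finset.sum_induction f IsInt (fun _ _ => IsInt.add) isInt_zero h

theorem IsRat.add {x y : ι → ℝ} (hx : IsRat x) (hy : IsRat y) : IsRat (x + y) := fun i => by
  obtain ⟨a, ha⟩ := hx i
  obtain ⟨b, hb⟩ := hy i
  exact ⟨a + b, by simp [ha, hb]⟩

theorem IsRat.neg {x : ι → ℝ} (hx : IsRat x) : IsRat (-x) := fun i => by
  obtain ⟨a, ha⟩ := hx i
  exact ⟨-a, by simp [ha]⟩

theorem IsRat.sub {x y : ι → ℝ} (hx : IsRat x) (hy : IsRat y) : IsRat (x - y) := by
  rw [sub_eq_add_neg]; exact hx.add hy.neg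

theorem IsRat.smul {x : ι → ℝ} (hx : IsRat x) (q : ℚ) : IsRat ((q : ℝ) • x) := fun i => by
  obtain ⟨a, ha⟩ := hx i
  exact ⟨q * a, by simp [ha]⟩

theorem isRat_zero : IsRat (0 : ι → ℝ) := isInt_zero.isRat

theorem isRat_sum {κ : Type*} (s : Finset κ) {f : κ → ι → ℝ} (h : ∀ j ∈ s, IsRat (f j)) :
    IsRat (∑ j ∈ s, f j) :=
  Finset.sum_induction f IsRat (fun _ _ => IsRat.add) isRat_zero h

theorem IsInt.isRat_of_smul {x : ι → ℝ} {m : ℕ} (hm : 0 < m) (h : IsInt ((m : ℝ) • x)) :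
    IsRat x := by
  have h1 := h.isRat.smul ((m : ℚ)⁻¹)
  have hm' : (m : ℝ) ≠ 0 := by positivity
  rwa [smul_smul, Rat.cast_inv, Rat.cast_natCast, inv_mul_cancel₀ hm', one_smul] at h1

/-- common denominator of finitely many rational numbers -/
theorem exists_den {κ : Type*} [Finite κ] {f : κ → ℝ} (h : IsRat f) :
    ∃ q : ℕ, 0 < q ∧ IsInt ((q : ℝ) • f) := by
  classical
  have := Fintype.ofFinite κ
  choose r hr using h
  refine ⟨∏ j, (r j).den, Finset.prod_pos fun j _ => (r j).den_pos, fun j => ?_⟩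
  refine ⟨(∏ l ∈ univ.erase j, ((r l).den : ℤ)) * (r j).num, ?_⟩
  rw [Pi.smul_apply, smul_eq_mul, hr j, ← Finset.prod_erase_mul _ _ (mem_univ j)]
  have h1 : ((r j).den : ℝ) * (r j : ℝ) = (r j).num := by exact_mod_cast (r j).den_mul_eq_num
  push_cast
  rw [mul_assoc, h1]

/-- common denominator of finitely many rational points -/
theorem exists_den_set [Finite ι] {T : Set (ι → ℝ)} (hT : T.Finite) (h : ∀ x ∈ T, IsRat x) :
    ∃ q : ℕ, 0 < q ∧ ∀ x ∈ T, IsInt ((q : ℝ) • x) := by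
  have := hT.to_subtype
  obtain ⟨q, hq, hi⟩ := exists_den (f := fun p : T × ι => p.1.1 p.2) fun p => h p.1.1 p.1.2 p.2
  exact ⟨q, hq, fun x hx i => hi (⟨x, hx⟩, i)⟩

theorem IsInt.dot [Fintype ι] {x y : ι → ℝ} (hx : IsInt x) (hy : IsInt y) :
    ∃ z : ℤ, x ⬝ᵥ y = z := by
  choose a ha using hx
  choose b hb using hy
  exact ⟨∑ i, a i * b i, by simp [dotProduct, ha, hb]⟩

theorem IsRat.dot [Fintype ι] {x y : ι → ℝ} (hx : IsRat x) (hy : IsRat y) :
    ∃ q : ℚ, x ⬝ᵥ y = q := by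
  choose a ha using hx
  choose b hb using hy
  exact ⟨∑ i, a i * b i, by simp [dotProduct, ha, hb]⟩

theorem abs_dot_le [Fintype ι] (a x : ι → ℝ) : |a ⬝ᵥ x| ≤ (∑ i, |a i|) * ‖x‖ := by
  rw [dotProduct, Finset.sum_mul]
  refine (Finset.abs_sum_le_sum_abs _ _).trans (Finset.sum_le_sum fun i _ => ?_)
  rw [abs_mul]
  exact mul_le_mul_of_nonneg_left (norm_le_pi_norm x i) (abs_nonneg _)

theorem sum_sub_ne {κ M : Type*} [Fintype κ] [AddCommMonoid M] (w : κ → ℝ) {n : ℕ}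
    (e : Fin n ≃ {j : κ // w j ≠ 0}) (f : κ → M) (hf : ∀ j, w j = 0 → f j = 0) :
    ∑ i, f (e i) = ∑ j, f j := by
  classical
  rw [e.sum_comp (fun j => f j.1), ← Finset.sum_subtype (univ.filter fun j => w j ≠ 0)
    (by simp) f]
  exact Finset.sum_filter_of_ne fun j _ hj h0 => hj (hf j h0)

/-- a point of a convex hull as a combination with positive weights -/
theorem hull_fin {E : Type*} [AddCommGroup E] [Module ℝ E] {s : Set E} {x : E}
    (hx : x ∈ convexHull ℝ s) : ∃ (n : ℕ) (w : Fin n → ℝ) (z : Fin n → E),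
      (∀ i, 0 < w i) ∧ ∑ i, w i = 1 ∧ (∀ i, z i ∈ s) ∧ ∑ i, w i • z i = x := by
  classical
  obtain ⟨κ, _, w, z, hw, h1, hz, hs⟩ := mem_convexHull_iff_exists_fintype.1 hx
  let e := (Fintype.equivFin {j : κ // w j ≠ 0}).symm
  refine ⟨_, fun i => w (e i), fun i => z (e i), fun i => (hw _).lt_of_ne' (e i).2, ?_,
    fun i => hz _, ?_⟩
  · exact (sum_sub_ne w e w fun _ h => h).trans h1
  · exact (sum_sub_ne w e (fun j => w j • z j) fun j h => by simp [h]).trans hs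

theorem zero_mem_hull {E : Type*} [NormedAddCommGroup E] [NormedSpace ℝ E]
    [FiniteDimensional ℝ E] {A : Set E} (hne : A.Nonempty) (h : ∀ a ∈ A, -a ∈ closure A) :
    (0 : E) ∈ convexHull ℝ A := by
  classical
  obtain ⟨a0, ha0⟩ := hne
  obtain ⟨b, hbA, hsp, hli⟩ := exists_linearIndependent ℝ A
  have : Finite b := hli.finite
  have := Fintype.ofFinite b
  let v : Option b → E := fun j => j.elim a0 fun t => t.1
  have hv : ∀ j, v j ∈ A := fun j => by
    cases j with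
    | none => exact ha0
    | some t => exact hbA t.2
  let L : (Option b → ℝ) →ₗ[ℝ] E := Fintype.linearCombination ℝ v
  have hL : ∀ a ∈ A, a ∈ LinearMap.range L := by
    intro a ha
    rw [Fintype.range_linearCombination]
    have h1 : a ∈ Submodule.span ℝ b := hsp ▸ Submodule.subset_span ha
    have h2 : b ⊆ Set.range v := fun t ht => ⟨some ⟨t, ht⟩, rfl⟩
    exact Submodule.span_mono h2 h1
  obtain ⟨g, hg⟩ := L.rangeRestrict.exists_rightInverse_of_surjective L.range_rangeRestrict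
  obtain ⟨G, hG⟩ := g.exists_extend
  have hLG : ∀ w ∈ LinearMap.range L, L (G w) = w := by
    intro w hw
    have h1 := LinearMap.congr_fun hG ⟨w, hw⟩
    have h2 := congrArg Subtype.val (LinearMap.congr_fun hg ⟨w, hw⟩)
    simp only [LinearMap.comp_apply, Submodule.subtype_apply] at h1
    rw [h1]
    exact h2
  let C := ‖LinearMap.toContinuousLinearMap G‖
  have hC : ∀ w, ‖G w‖ ≤ C * ‖w‖ := fun w => (LinearMap.toContinuousLinearMap G).le_opNorm w
  have hC0 : 0 ≤ C := norm_nonneg _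
  set N : ℝ := (Fintype.card (Option b) : ℝ) with hN
  have hN0 : 0 < N := by rw [hN]; exact_mod_cast Fintype.card_pos
  have hδ : 0 < 1 / ((C + 1) * N) := by positivity
  have hu : ∀ j, ∃ u ∈ A, ‖u + v j‖ ≤ 1 / ((C + 1) * N) := fun j => by
    obtain ⟨u, hu, hd⟩ := Metric.mem_closure_iff.1 (h _ (hv j)) _ hδ
    refine ⟨u, hu, ?_⟩
    rw [dist_comm, dist_eq_norm, sub_neg_eq_add] at hd
    exact hd.le
  choose u huA hu using hu
  set e := ∑ j, (u j + v j) with he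
  have he1 : ‖e‖ ≤ 1 / (C + 1) := by
    refine (norm_sum_le _ _).trans ((Finset.sum_le_sum fun j _ => hu j).trans ?_)
    rw [Finset.sum_const, card_univ, nsmul_eq_mul, ← hN]
    field_simp
    exact le_rfl
  have hη : ∀ j, G e j ≤ 1 := fun j => by
    refine (le_abs_self _).trans ((norm_le_pi_norm (G e) j).trans ((hC e).trans ?_))
    calc C * ‖e‖ ≤ C * (1 / (C + 1)) := mul_le_mul_of_nonneg_left he1 hC0
      _ ≤ 1 := by rw [mul_one_div, div_le_one (by positivity)]; linarith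
  have hLe : ∑ j, G e j • v j = e := by
    have h1 := hLG e (Submodule.sum_mem _ fun j _ =>
      Submodule.add_mem _ (hL _ (huA j)) (hL _ (hv j)))
    rwa [Fintype.linearCombination_apply] at h1
  have hm := Finset.centerMass_mem_convexHull (R := ℝ) (s := A) (univ : Finset (Option b ⊕ Option b))
    (w := Sum.elim (fun _ => 1) fun j => 1 - G e j) (z := Sum.elim u v)
    (fun j _ => by cases j with
      | inl j => exact zero_le_one
      | inr j => exact sub_nonneg.2 (hη j))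
    (by
      rw [Fintype.sum_sum_type]
      refine add_pos_of_pos_of_nonneg ?_ (Finset.sum_nonneg fun j _ => sub_nonneg.2 (hη j))
      exact Finset.sum_pos (fun j _ => one_pos) univ_nonempty)
    (fun j _ => by cases j with
      | inl j => exact huA j
      | inr j => exact hv j)
  have h0 : ∑ j : Option b ⊕ Option b, Sum.elim (fun _ => (1 : ℝ)) (fun j => 1 - G e j) j •
      Sum.elim u v j = 0 := by
    rw [Fintype.sum_sum_type]
    simp only [Sum.elim_inl, Sum.elim_inr, one_smul, sub_smul, Finset.sum_sub_distrib]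
    rw [hLe, he, Finset.sum_add_distrib]
    abel
  rwa [Finset.centerMass, h0, smul_zero] at hm

variable [Fintype ι]

/-- simultaneous approximation by one multiple -/
theorem dirichlet (x : ι → ℝ) {η : ℝ} (hη : 0 < η) :
    ∃ n : ℕ, 0 < n ∧ ∃ z : ι → ℝ, IsInt z ∧ ‖z - (n : ℝ) • x‖ < η := by
  obtain ⟨a, -, φ, hφ, hl⟩ := (isCompact_Icc (a := (0 : ι → ℝ)) (b := 1)).tendsto_subseq
    (x := fun (n : ℕ) i => Int.fract (n * x i))
    fun n => ⟨fun i => Int.fract_nonneg _, fun i => (Int.fract_lt_one _).le⟩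
  obtain ⟨N, hN⟩ := Metric.tendsto_atTop.1 hl (η / 2) (by positivity)
  have h1 := hN N le_rfl
  have h2 := hN (N + 1) (Nat.le_succ N)
  have h3 : φ N < φ (N + 1) := hφ (Nat.lt_succ_self N)
  refine ⟨φ (N + 1) - φ N, by omega,
    fun i => ((⌊(φ (N + 1) : ℝ) * x i⌋ - ⌊(φ N : ℝ) * x i⌋ : ℤ) : ℝ), fun i => ⟨_, rfl⟩, ?_⟩
  have h4 := (dist_triangle_right _ _ a).trans_lt (add_lt_add h1 h2)
  rw [add_halves, dist_eq_norm] at h4
  refine lt_of_eq_of_lt ?_ h4
  congr 1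
  funext i
  simp only [Pi.sub_apply, Pi.smul_apply, smul_eq_mul, Function.comp, Int.fract,
    Nat.cast_sub h3.le]
  push_cast
  ring

/-- every point is a convex combination of good approximations -/
theorem dio (x : ι → ℝ) {k : ℕ} (hk : 0 < k) {ε : ℝ} (hε : 0 < ε) :
    x ∈ convexHull ℝ (Appr x k ε) := by
  have hk' : (0 : ℝ) < k := by exact_mod_cast hk
  let A : Set (ι → ℝ) := {a | ∃ m : ℕ, 0 < m ∧ IsInt (a + (m : ℝ) • x) ∧ ‖a‖ < ε / k}
  have hA : (0 : ι → ℝ) ∈ convexHull ℝ A := by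
    refine zero_mem_hull ?_ ?_
    · obtain ⟨n, hn, z, hz, hd⟩ := dirichlet x (div_pos hε hk')
      exact ⟨z - (n : ℝ) • x, n, hn, by simpa using hz, hd⟩
    · rintro a ⟨m, hm, hi, ha⟩
      refine Metric.mem_closure_iff.2 fun η hη => ?_
      have h0 : 0 < min η (ε / k - ‖a‖) := lt_min hη (sub_pos.2 ha)
      obtain ⟨n, hn, z, hz, hd⟩ := dirichlet x
        (η := min η (ε / k - ‖a‖) / (m + 1 : ℕ)) (by positivity)
      have hd' : ‖((m + 1 : ℕ) : ℝ) • (z - (n : ℝ) • x)‖ < min η (ε / k - ‖a‖) := by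
        rw [norm_smul, Real.norm_of_nonneg (by positivity), mul_comm]
        exact (lt_div_iff₀ (by positivity)).1 hd
      have hle : m ≤ (m + 1) * n := by nlinarith
      refine ⟨((m + 1 : ℕ) : ℝ) • (z - (n : ℝ) • x) - a, ⟨(m + 1) * n - m, ?_, ?_, ?_⟩, ?_⟩
      · have : m < (m + 1) * n := by nlinarith
        omega
      · have h1 := (hz.nsmul (m + 1)).sub hi
        refine (congrArg IsInt ?_).mp h1
        funext i
        simp only [Pi.sub_apply, Pi.add_apply, Pi.smul_apply, smul_eq_mul, Nat.cast_sub hle]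
        push_cast
        ring
      · refine (norm_sub_le _ _).trans_lt ?_
        linarith [hd'.trans_le (min_le_right _ _)]
      · rw [dist_comm, dist_eq_norm, sub_neg_eq_add, sub_add_cancel]
        exact hd'.trans_le (min_le_left _ _)
  obtain ⟨n, w, a, hw, h1, ha, hs⟩ := hull_fin hA
  choose m hm hi hd using ha
  have hm' : ∀ j, (0 : ℝ) < m j := fun j => by exact_mod_cast hm j
  have hne : (univ : Finset (Fin n)).Nonempty := by
    by_contra h
    rw [Finset.not_nonempty_iff_eq_empty] at h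
    rw [h] at h1
    simp at h1
  have hpos : 0 < ∑ j, w j * m j := Finset.sum_pos (fun j _ => mul_pos (hw j) (hm' j)) hne
  have hc := Finset.centerMass_mem_convexHull (R := ℝ) (s := Appr x k ε) (univ : Finset (Fin n))
    (w := fun j => w j * m j) (z := fun j => x + (m j : ℝ)⁻¹ • a j)
    (fun j _ => (mul_pos (hw j) (hm' j)).le) hpos (fun j _ => ⟨m j, hm j, by
      rw [smul_add, smul_smul, mul_inv_cancel₀ (hm' j).ne', one_smul, add_comm]
      exact hi j, by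
      rw [sub_add_cancel_left, norm_neg, norm_smul, norm_inv, Real.norm_of_nonneg (hm' j).le,
        Nat.cast_mul, ← div_div, ← div_eq_inv_mul]
      exact div_lt_div_of_pos_right (hd j) (hm' j)⟩)
  have h2 : ∑ j, (w j * m j) • (x + (m j : ℝ)⁻¹ • a j) = (∑ j, w j * m j) • x := by
    simp only [smul_add, smul_smul, Finset.sum_add_distrib, ← Finset.sum_smul]
    have : ∀ j, w j * m j * (m j : ℝ)⁻¹ = w j := fun j => by
      rw [mul_assoc, mul_inv_cancel₀ (hm' j).ne', mul_one]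
    simp only [this, hs, add_zero]
  rwa [Finset.centerMass, h2, smul_smul, inv_mul_cancel₀ hpos.ne', one_smul] at hc

theorem Appr.mono {x : ι → ℝ} {k : ℕ} {ε ε' : ℝ} (h : ε ≤ ε') : Appr x k ε ⊆ Appr x k ε' := by
  rintro y ⟨m, hm, hi, hd⟩
  exact ⟨m, hm, hi, hd.trans_le (div_le_div_of_nonneg_right h (by positivity))⟩

theorem Appr.isRat {x y : ι → ℝ} {k : ℕ} {ε : ℝ} (h : y ∈ Appr x k ε) : IsRat y := by
  obtain ⟨m, hm, hi, -⟩ := h
  exact hi.isRat_of_smul hm

theorem Appr.norm_lt {x y : ι → ℝ} {k : ℕ} (hk : 0 < k) {ε : ℝ} (h : y ∈ Appr x k ε) :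
    ‖x - y‖ < ε := by
  obtain ⟨m, hm, -, hd⟩ := h
  have h1 : (1 : ℝ) ≤ ((k * m : ℕ) : ℝ) := by exact_mod_cast Nat.mul_pos hk hm
  have h2 : 0 < ε / ((k * m : ℕ) : ℝ) := (norm_nonneg _).trans_lt hd
  have h3 : 0 < ε := (div_pos_iff_of_pos_right (by linarith)).1 h2
  exact hd.trans_le (div_le_self h3.le h1)

/-- a rational affine function vanishing at `x` vanishes at all very good approximations -/
theorem appr_eq {a : ι → ℝ} {c : ℝ} (ha : IsRat a) (hc : ∃ q : ℚ, c = q) :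
    ∃ δ > 0, ∀ x : ι → ℝ, a ⬝ᵥ x = c → ∀ k : ℕ, 0 < k → ∀ y ∈ Appr x k δ, a ⬝ᵥ y = c := by
  obtain ⟨q, hq, hi⟩ := exists_den (f := fun j : Option ι => j.elim c a) fun j => by
    cases j with
    | none => exact hc
    | some i => exact ha i
  have hq' : (0 : ℝ) < q := by exact_mod_cast hq
  have hS : 0 ≤ ∑ i, |a i| := Finset.sum_nonneg fun i _ => abs_nonneg _
  refine ⟨1 / (q * (∑ i, |a i| + 1)), by positivity, ?_⟩
  rintro x hx k hk y ⟨m, hm, hy, hd⟩
  have hm' : (0 : ℝ) < m := by exact_mod_cast hm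
  have hk' : (1 : ℝ) ≤ k := by exact_mod_cast hk
  have hia : IsInt ((q : ℝ) • a) := fun i => hi (some i)
  obtain ⟨z1, hz1⟩ := hia.dot hy
  obtain ⟨z2, hz2⟩ := hi none
  have hz2' : (q : ℝ) * c = z2 := hz2
  rw [smul_dotProduct, dotProduct_smul, smul_eq_mul, smul_eq_mul] at hz1
  have e1 : ((z1 - m * z2 : ℤ) : ℝ) = -(q * m * (a ⬝ᵥ (x - y))) := by
    push_cast
    rw [← hz1, ← hz2', dotProduct_sub, hx]
    ring
  have e2 : |((z1 - m * z2 : ℤ) : ℝ)| < 1 := by
    rw [e1, abs_neg, abs_mul, abs_of_pos (mul_pos hq' hm')]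
    have h1 := abs_dot_le a (x - y)
    have h2 : ‖x - y‖ * (q * (∑ i, |a i| + 1) * (k * m)) < 1 := by
      rw [div_div, Nat.cast_mul] at hd
      exact (lt_div_iff₀ (by positivity)).1 hd
    have h3 : q * m * |a ⬝ᵥ (x - y)| ≤ ‖x - y‖ * (q * (∑ i, |a i| + 1) * (1 * m)) := by
      have := norm_nonneg (x - y)
      calc q * m * |a ⬝ᵥ (x - y)| ≤ q * m * ((∑ i, |a i|) * ‖x - y‖) := by gcongr
        _ ≤ q * m * ((∑ i, |a i| + 1) * ‖x - y‖) := by gcongr; linarith
        _ = _ := by ring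
    have h4 : ‖x - y‖ * (q * (∑ i, |a i| + 1) * (1 * m)) ≤
        ‖x - y‖ * (q * (∑ i, |a i| + 1) * (k * m)) := by gcongr
    linarith
  have e3 : z1 - m * z2 = 0 := by
    have : |z1 - m * z2| < 1 := by exact_mod_cast e2
    exact Int.abs_lt_one_iff.1 this
  rw [e3, Int.cast_zero, dotProduct_sub, hx] at e1
  have e4 : q * m * (c - a ⬝ᵥ y) = 0 := by linarith
  rcases mul_eq_zero.1 e4 with h | h
  · exact absurd h (mul_pos hq' hm').ne'
  · linarith

/-- good approximations of a point of a rational polyhedron stay in it -/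
theorem RatPolyhedron.appr_subset {P : Set (ι → ℝ)} (hP : RatPolyhedron P) {x : ι → ℝ}
    (hx : x ∈ P) : ∃ δ > 0, ∀ k : ℕ, 0 < k → Appr x k δ ⊆ P := by
  obtain ⟨H, hH, hr, rfl⟩ := hP
  have key : ∀ h ∈ H, ∃ δ > 0, ∀ k : ℕ, 0 < k → ∀ y ∈ Appr x k δ, h.1 ⬝ᵥ y ≤ h.2 := by
    intro h hh
    rcases (hx h hh).eq_or_lt with h1 | h1
    · obtain ⟨δ, hδ, hd⟩ := appr_eq (hr h hh).1 (hr h hh).2
      exact ⟨δ, hδ, fun k hk y hy => (hd x h1 k hk y hy).le⟩
    · have hS : 0 ≤ ∑ i, |h.1 i| := Finset.sum_nonneg fun i _ => abs_nonneg _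
      refine ⟨(h.2 - h.1 ⬝ᵥ x) / (∑ i, |h.1 i| + 1), div_pos (sub_pos.2 h1) (by positivity),
        fun k hk y hy => ?_⟩
      have h2 := (lt_div_iff₀ (by positivity)).1 (Appr.norm_lt hk hy)
      have h3 := abs_dot_le h.1 (x - y)
      have h4 := neg_abs_le (h.1 ⬝ᵥ (x - y))
      rw [dotProduct_sub] at h3 h4
      nlinarith [norm_nonneg (x - y)]
  choose! δ hδ hd using key
  obtain ⟨η, hη, hle⟩ : ∃ η > 0, ∀ h ∈ H, η ≤ δ h := by
    rcases H.eq_empty_or_nonempty with h0 | h0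
    · exact ⟨1, one_pos, by simp [h0]⟩
    · obtain ⟨h, hh, hmin⟩ := Set.exists_min_image H δ hH h0
      exact ⟨δ h, hδ h hh, hmin⟩
  exact ⟨η, hη, fun k hk y hy h hh => hd h hh k hk y (Appr.mono (hle h hh) hy)⟩

/-- approximation inside a rational polyhedron -/
theorem RatPolyhedron.dio {P : Set (ι → ℝ)} (hP : RatPolyhedron P) {x : ι → ℝ} (hx : x ∈ P)
    {k : ℕ} (hk : 0 < k) {ε : ℝ} (hε : 0 < ε) : x ∈ convexHull ℝ (P ∩ Appr x k ε) := by
  obtain ⟨δ, hδ, hd⟩ := hP.appr_subset hx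
  refine convexHull_mono ?_ (Cvx.dio x hk (lt_min hε hδ))
  exact fun y hy => ⟨hd k hk (Appr.mono (min_le_right _ _) hy), Appr.mono (min_le_left _ _) hy⟩

end P277Z.Cvx
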