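import Vale.Agent.P277Z.Cvx.Dio

/-! A one-sided approximation criterion for rational polyhedral cones. -/

namespace P277Z.Cvx

open Set Finset Filter Topology

variable {ι τ : Type*}

/-- `z` lies in the lattice `k ℤ^ι` -/
def Lat (k : ℕ) (z : ι → ℝ) : Prop := ∃ y, IsInt y ∧ z = (k : ℝ) • y

theorem Lat.isInt {k : ℕ} {z : ι → ℝ} (h : Lat k z) : IsInt z := by
  obtain ⟨y, hy, rfl⟩ := h
  exact hy.nsmul k

theorem Lat.add {k : ℕ} {z z' : ι → ℝ} (h : Lat k z) (h' : Lat k z') : Lat k (z + z') := by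
  obtain ⟨y, hy, rfl⟩ := h
  obtain ⟨y', hy', rfl⟩ := h'
  exact ⟨y + y', hy.add hy', (smul_add _ _ _).symm⟩

theorem Lat.sub {k : ℕ} {z z' : ι → ℝ} (h : Lat k z) (h' : Lat k z') : Lat k (z - z') := by
  obtain ⟨y, hy, rfl⟩ := h
  obtain ⟨y', hy', rfl⟩ := h'
  exact ⟨y - y', hy.sub hy', (smul_sub _ _ _).symm⟩

theorem Lat.nsmul {k : ℕ} {z : ι → ℝ} (h : Lat k z) (n : ℕ) : Lat k ((n : ℝ) • z) := by
  obtain ⟨y, hy, rfl⟩ := h
  exact ⟨(n : ℝ) • y, hy.nsmul n, smul_comm _ _ _⟩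

theorem IsInt.lat {k m : ℕ} {y : ι → ℝ} (h : IsInt ((m : ℝ) • y)) :
    Lat k (((k * m : ℕ) : ℝ) • y) := ⟨_, h, by rw [Nat.cast_mul, mul_smul]⟩

variable [Fintype ι]

/-- The data of the criterion: a convex cone `C` with bounded base `h = 1`, rational functionals
`u T` which are nonnegative on `C`, such that every point of the lattice `k ℤ^ι` which is
`δ`-close to a point `w` of the closure of `C` and on which the `u T` are at least as large as on
`w` belongs to `C`. -/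
structure Crit (C : Set (ι → ℝ)) (h : ι → ℝ) (u : τ → ι → ℝ) (k : ℕ) (δ : ℝ) : Prop where
  convex : Convex ℝ C
  smul : ∀ t : ℝ, 0 < t → ∀ x ∈ C, t • x ∈ C
  rat_h : IsRat h
  bdd : ∃ M : ℝ, 0 ≤ M ∧ ∀ x ∈ C, ‖x‖ ≤ M * (h ⬝ᵥ x)
  rat_u : ∀ T, IsRat (u T)
  nonneg : ∀ T, ∀ x ∈ C, 0 ≤ u T ⬝ᵥ x
  k_pos : 0 < k
  δ_pos : 0 < δ
  crit : ∀ w ∈ closure C, ∀ z, Lat k z → 0 < h ⬝ᵥ z → ‖z - w‖ < δ →
    (∀ T, u T ⬝ᵥ w ≤ u T ⬝ᵥ z) → z ∈ C

namespace Crit

variable {C : Set (ι → ℝ)} {h : ι → ℝ} {u : τ → ι → ℝ} {k : ℕ} {δ : ℝ}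

theorem cont (a : ι → ℝ) : Continuous fun x : ι → ℝ => a ⬝ᵥ x := by fun_prop

theorem smul_cl (H : Crit C h u k δ) {t : ℝ} (ht : 0 < t) {x : ι → ℝ} (hx : x ∈ closure C) :
    t • x ∈ closure C :=
  map_mem_closure (f := fun y : ι → ℝ => t • y) (by fun_prop) hx (H.smul t ht)

theorem nonneg_cl (H : Crit C h u k δ) (T : τ) {x : ι → ℝ} (hx : x ∈ closure C) :
    0 ≤ u T ⬝ᵥ x :=
  closure_minimal (H.nonneg T) (isClosed_le continuous_const (cont _)) hx

/-- a small tilt `η`, and a size `ε` of errors which the tilt dominates -/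
theorem tilt [Finite τ] (H : Crit C h u k δ) {w : ι → ℝ} (hw : w ∈ closure C) :
    ∃ η ε : ℝ, 0 < η ∧ η < 1 ∧ 0 < ε ∧ (∀ e : ι → ℝ, ‖e‖ < 2 * ε → ‖e + η • w‖ < δ) ∧
      (∀ T, u T ⬝ᵥ w ≠ 0 → ∀ e : ι → ℝ, ‖e‖ < 2 * ε → 0 ≤ u T ⬝ᵥ (e + η • w)) ∧
      (∀ T, u T ⬝ᵥ w = 0 → ∀ y ∈ Appr w k ε, u T ⬝ᵥ y = 0) ∧
      ∀ y ∈ Appr w k ε, h ⬝ᵥ w = 1 → h ⬝ᵥ y = 1 := by
  have hδ := H.δ_pos
  have hn := norm_nonneg w
  obtain ⟨η, h0, h1, h2⟩ : ∃ η : ℝ, 0 < η ∧ η < 1 ∧ ‖η • w‖ < δ := by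
    refine ⟨min (1 / 2) (δ / (‖w‖ + 1)), by positivity,
      (min_le_left _ _).trans_lt (by norm_num), ?_⟩
    rw [norm_smul, Real.norm_of_nonneg (by positivity)]
    calc min (1 / 2) (δ / (‖w‖ + 1)) * ‖w‖ ≤ δ / (‖w‖ + 1) * ‖w‖ := by
          gcongr; exact min_le_right _ _
      _ < δ := by rw [div_mul_eq_mul_div, div_lt_iff₀ (by positivity)]; nlinarith
  have e1 : ∀ᶠ e in 𝓝 (0 : ι → ℝ), ‖e + η • w‖ < δ :=
    (by fun_prop : Continuous fun e : ι → ℝ => ‖e + η • w‖).continuousAt.eventually_lt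
      continuousAt_const (by simpa using h2)
  have e2 : ∀ᶠ e in 𝓝 (0 : ι → ℝ), ∀ T, u T ⬝ᵥ w ≠ 0 → 0 ≤ u T ⬝ᵥ (e + η • w) := by
    refine eventually_all.2 fun T => ?_
    by_cases hT : u T ⬝ᵥ w = 0
    · exact .of_forall fun _ hh => absurd hT hh
    · have hp : 0 < u T ⬝ᵥ w := (H.nonneg_cl T hw).lt_of_ne' hT
      refine (continuousAt_const.eventually_lt
        (by fun_prop : Continuous fun e : ι → ℝ => u T ⬝ᵥ (e + η • w)).continuousAt
        (x₀ := 0) (f := fun _ => (0 : ℝ)) ?_).mono fun e he _ => he.le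
      rw [zero_add, dotProduct_smul, smul_eq_mul]
      positivity
  obtain ⟨r, hr, hb⟩ := Metric.eventually_nhds_iff.1 (e1.and e2)
  choose d hd hdd using fun T => appr_eq (c := 0) (H.rat_u T) ⟨0, by simp⟩
  obtain ⟨d1, hd1, hdd1⟩ := appr_eq (c := 1) H.rat_h ⟨1, by simp⟩
  obtain ⟨d0, hd0, hle⟩ : ∃ d0 > 0, ∀ T, d0 ≤ d T := by
    cases isEmpty_or_nonempty τ with
    | inl _ => exact ⟨1, one_pos, fun T => isEmptyElim T⟩
    | inr _ =>
      obtain ⟨T, hT⟩ := Finite.exists_min d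
      exact ⟨d T, hd T, hT⟩
  have hlt : ∀ e : ι → ℝ, ‖e‖ < 2 * min (r / 2) (min d0 d1) → dist e 0 < r := fun e he => by
    rw [dist_zero_right]
    linarith [min_le_left (r / 2) (min d0 d1)]
  refine ⟨η, min (r / 2) (min d0 d1), h0, h1, by positivity, fun e he => (hb (hlt e he)).1,
    fun T hT e he => (hb (hlt e he)).2 T hT, fun T hT y hy => hdd T w hT k H.k_pos y
      (Appr.mono (((min_le_right _ _).trans (min_le_left _ _)).trans (hle T)) hy),
    fun y hy hw1 => hdd1 w hw1 k H.k_pos y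
      (Appr.mono ((min_le_right _ _).trans (min_le_right _ _)) hy)⟩

theorem appr_norm {w y : ι → ℝ} {m : ℕ} {ε : ℝ} (hm : (0 : ℝ) < ((k * m : ℕ) : ℝ))
    (hd : ‖w - y‖ < ε / ((k * m : ℕ) : ℝ)) : ‖((k * m : ℕ) : ℝ) • (y - w)‖ < ε := by
  rw [norm_smul, Real.norm_of_nonneg hm.le, norm_sub_rev, mul_comm]
  exact (lt_div_iff₀ hm).1 hd

/-- good approximations of a point of the closed base lie in the base -/
theorem appr_mem [Finite τ] (H : Crit C h u k δ) {w : ι → ℝ} (hw : w ∈ closure C)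
    (h1 : h ⬝ᵥ w = 1) : ∃ ε > 0, ∀ y ∈ Appr w k ε, y ∈ C ∧ h ⬝ᵥ y = 1 := by
  obtain ⟨η, ε, h0, hη, hε, t1, t2, t3, t4⟩ := H.tilt hw
  refine ⟨ε, hε, fun y hy => ⟨?_, t4 y hy h1⟩⟩
  have hy1 := t4 y hy h1
  have hy3 := fun T hT => t3 T hT y hy
  obtain ⟨m, hm, hi, hd⟩ := hy
  have hk : (1 : ℝ) ≤ ((k * m : ℕ) : ℝ) := by exact_mod_cast Nat.mul_pos H.k_pos hm
  set t : ℝ := ((k * m : ℕ) : ℝ) with ht
  have he : ‖t • (y - w)‖ < 2 * ε := (appr_norm (by linarith) hd).trans (by linarith)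
  have e : t • y - (t - η) • w = t • (y - w) + η • w := by module
  have hz : t • y ∈ C := by
    refine H.crit _ (H.smul_cl (by linarith : 0 < t - η) hw) _ hi.lat ?_ ?_ fun T => ?_
    · rw [dotProduct_smul, hy1, smul_eq_mul]; linarith
    · rw [e]; exact t1 _ he
    · by_cases hT : u T ⬝ᵥ w = 0
      · rw [dotProduct_smul, dotProduct_smul, hT, hy3 T hT, smul_zero, smul_zero]
      · rw [← sub_nonneg, ← dotProduct_sub, e]
        exact t2 T hT _ he
  have := H.smul t⁻¹ (by positivity) _ hz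
  rwa [smul_smul, inv_mul_cancel₀ (by linarith), one_smul] at this

/-- the closed base -/
abbrev base (C : Set (ι → ℝ)) (h : ι → ℝ) : Set (ι → ℝ) := closure C ∩ {x | h ⬝ᵥ x = 1}

theorem convex_base (H : Crit C h u k δ) : Convex ℝ (base C h) :=
  H.convex.closure.inter (convex_hyperplane
    (f := fun x : ι → ℝ => h ⬝ᵥ x) ⟨dotProduct_add h, fun c x => dotProduct_smul c h x⟩ 1)

theorem compact_base (H : Crit C h u k δ) : IsCompact (base C h) := by
  obtain ⟨M, -, hM⟩ := H.bdd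
  refine Metric.isCompact_of_isClosed_isBounded
    (isClosed_closure.inter (isClosed_eq (cont _) continuous_const))
    (isBounded_iff_forall_norm_le.2 ⟨M, fun x hx => ?_⟩)
  have := closure_minimal (t := {x : ι → ℝ | ‖x‖ ≤ M * (h ⬝ᵥ x)}) hM
    (isClosed_le continuous_norm (by fun_prop)) hx.1
  simpa [show h ⬝ᵥ x = 1 from hx.2] using this

theorem base_sub [Finite τ] (H : Crit C h u k δ) : base C h ⊆ C := fun w hw => by
  obtain ⟨ε, hε, hy⟩ := H.appr_mem hw.1 hw.2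
  exact convexHull_min (fun y h' => (hy y h').1) H.convex (dio w H.k_pos hε)

theorem isRat_extreme [Finite τ] (H : Crit C h u k δ) {e : ι → ℝ}
    (he : e ∈ (base C h).extremePoints ℝ) : IsRat e := by
  obtain ⟨ε, hε, hy⟩ := H.appr_mem he.1.1 he.1.2
  have hs : convexHull ℝ (Appr e k ε) ⊆ base C h :=
    convexHull_min (fun y h' => ⟨subset_closure (hy y h').1, (hy y h').2⟩) H.convex_base
  exact Appr.isRat (extremePoints_convexHull_subset
    (inter_extremePoints_subset_extremePoints_of_subset hs ⟨dio e H.k_pos hε, he⟩))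

theorem finite_extreme [Finite τ] (H : Crit C h u k δ) : ((base C h).extremePoints ℝ).Finite := by
  by_contra hinf
  obtain ⟨w, hw, hacc⟩ := (Set.not_finite.1 hinf).exists_accPt_of_subset_isCompact
    H.compact_base extremePoints_subset
  obtain ⟨η, ε, h0, hη, hε, t1, t2, t3, -⟩ := H.tilt hw.1
  obtain ⟨ε', hε', hy⟩ := H.appr_mem hw.1 hw.2
  obtain ⟨y, hyA⟩ : (Appr w k (min ε ε')).Nonempty :=
    convexHull_nonempty_iff.1 ⟨w, dio w H.k_pos (lt_min hε hε')⟩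
  obtain ⟨hyC, hy1⟩ := hy y (Appr.mono (min_le_right _ _) hyA)
  have hyA' := Appr.mono (min_le_left _ _) hyA
  have hy3 := fun T hT => t3 T hT y hyA'
  obtain ⟨m, hm, hi, hd⟩ := hyA'
  have hk : (1 : ℝ) ≤ ((k * m : ℕ) : ℝ) := by exact_mod_cast Nat.mul_pos H.k_pos hm
  set t : ℝ := ((k * m : ℕ) : ℝ) with ht
  have he : ‖t • (y - w)‖ < ε := appr_norm (by linarith) hd
  have key : ∀ e ∈ (base C h).extremePoints ℝ, ‖e - w‖ < ε / (t + η) → e = y := by
    intro e hex hew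
    obtain ⟨q, hq, hqi⟩ := exists_den (H.isRat_extreme hex)
    have hq' : (1 : ℝ) ≤ q := by exact_mod_cast hq
    have hk' : (1 : ℝ) ≤ k := by exact_mod_cast H.k_pos
    have hL : Lat k (((m + 1 : ℕ) : ℝ) • ((k * q : ℕ) : ℝ) • e - t • y) :=
      (hqi.lat.nsmul (m + 1)).sub hi.lat
    rw [smul_smul] at hL
    set n : ℝ := ((m + 1 : ℕ) : ℝ) * ((k * q : ℕ) : ℝ) with hn
    have hnt : t + 1 ≤ n := by
      have hm' : (0 : ℝ) ≤ m := by positivity
      rw [hn, ht]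
      push_cast
      nlinarith [mul_le_mul_of_nonneg_left hq' (by positivity : (0 : ℝ) ≤ (m + 1) * k)]
    have e1 : n • e - t • y - (n - t - η) • e = ((t + η) • (e - w) - t • (y - w)) + η • w := by
      module
    have he2 : ‖(t + η) • (e - w) - t • (y - w)‖ < 2 * ε := by
      refine (norm_sub_le _ _).trans_lt ?_
      have : ‖(t + η) • (e - w)‖ < ε := by
        rw [norm_smul, Real.norm_of_nonneg (by linarith), mul_comm]
        exact (lt_div_iff₀ (by linarith)).1 hew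
      linarith
    have hh : h ⬝ᵥ (n • e - t • y) = n - t := by
      rw [dotProduct_sub, dotProduct_smul, dotProduct_smul, hy1, show h ⬝ᵥ e = 1 from hex.1.2]
      simp
    have hz : n • e - t • y ∈ C := by
      refine H.crit _ (H.smul_cl (by linarith : 0 < n - t - η) hex.1.1) _ hL ?_ ?_ fun T => ?_
      · rw [hh]; linarith
      · rw [e1]; exact t1 _ he2
      · by_cases hT : u T ⬝ᵥ w = 0
        · have := H.nonneg_cl T hex.1.1
          rw [dotProduct_sub, dotProduct_smul, dotProduct_smul, dotProduct_smul, hy3 T hT]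
          simp only [smul_eq_mul]
          nlinarith
        · rw [← sub_nonneg, ← dotProduct_sub, e1]
          exact t2 T hT _ he2
    have hz' : (n - t)⁻¹ • (n • e - t • y) ∈ base C h :=
      ⟨subset_closure (H.smul _ (inv_pos.2 (by linarith)) _ hz), by
        change h ⬝ᵥ _ = 1
        rw [dotProduct_smul, hh, smul_eq_mul, inv_mul_cancel₀ (by linarith)]⟩
    have hn0 : n ≠ 0 := by linarith
    have hnt0 : n - t ≠ 0 := by linarith
    refine (hex.2 ⟨subset_closure hyC, hy1⟩ hz' ⟨t / n, (n - t) / n, by positivity,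
      div_pos (by linarith) (by linarith), by field_simp; ring, ?_⟩).symm
    rw [smul_smul, show (n - t) / n * (n - t)⁻¹ = n⁻¹ by field_simp, smul_sub, smul_smul,
      smul_smul, inv_mul_cancel₀ hn0, one_smul, div_eq_inv_mul]
    abel
  have hfin : ((base C h).extremePoints ℝ ∩ Metric.ball w (ε / (t + η))).Finite :=
    (Set.finite_singleton y).subset fun e he => key e he.1 (by simpa [dist_eq_norm] using he.2)
  have hacc' := hacc.nhds_inter (Metric.ball_mem_nhds w (div_pos hε (by linarith : 0 < t + η)))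
  rw [Set.inter_comm] at hfin
  exact (Set.Infinite.of_accPt hacc') hfin

/-- **The criterion**: the base is a rational polytope. -/
theorem ratPolytope [Finite τ] (H : Crit C h u k δ) : RatPolytope (C ∩ {x | h ⬝ᵥ x = 1}) := by
  have e : C ∩ {x | h ⬝ᵥ x = 1} = base C h :=
    Set.Subset.antisymm (fun x hx => ⟨subset_closure hx.1, hx.2⟩) fun x hx => ⟨H.base_sub hx, hx.2⟩
  refine ⟨_, H.finite_extreme, fun x hx => H.isRat_extreme hx, ?_⟩
  rw [e, ← (H.finite_extreme.isCompact_convexHull ℝ).isClosed.closure_eq,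
    closure_convexHull_extremePoints H.compact_base H.convex_base]

/-- **The criterion**: the closure of `C` is generated by finitely many lattice points of `C`. -/
theorem gen [Finite τ] (H : Crit C h u k δ) : ∃ (n : ℕ) (z : Fin n → ι → ℝ),
    (∀ j, z j ∈ C ∧ Lat k (z j) ∧ 0 < h ⬝ᵥ z j) ∧
      ∀ x ∈ closure C, ∃ a : Fin n → ℝ, (∀ j, 0 ≤ a j) ∧ x = ∑ j, a j • z j := by
  classical
  obtain ⟨S, hS, hr, hP⟩ := H.ratPolytope
  obtain ⟨q, hq, hqi⟩ := exists_den_set hS hr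
  have hkq : (0 : ℝ) < ((k * q : ℕ) : ℝ) := by exact_mod_cast Nat.mul_pos H.k_pos hq
  set t : ℝ := ((k * q : ℕ) : ℝ) with ht
  have := hS.fintype
  let e := (Fintype.equivFin S).symm
  have hm : ∀ j, (e j).1 ∈ C ∩ {x | h ⬝ᵥ x = 1} := fun j =>
    hP ▸ subset_convexHull ℝ S (e j).2
  refine ⟨_, fun j => t • (e j).1, fun j => ⟨H.smul t hkq _ (hm j).1, (hqi _ (e j).2).lat, ?_⟩,
    fun x hx => ?_⟩
  · rw [dotProduct_smul, show h ⬝ᵥ (e j).1 = 1 from (hm j).2]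
    simpa using hkq
  obtain ⟨M, hM0, hM⟩ := H.bdd
  have hx1 : ‖x‖ ≤ M * (h ⬝ᵥ x) := closure_minimal (t := {x : ι → ℝ | ‖x‖ ≤ M * (h ⬝ᵥ x)}) hM
    (isClosed_le continuous_norm (by fun_prop)) hx
  by_cases h0 : x = 0
  · exact ⟨0, fun _ => le_rfl, by simp [h0]⟩
  have hpos : 0 < h ⬝ᵥ x := by
    by_contra hn
    have := norm_pos_iff.2 h0
    nlinarith [mul_nonneg hM0 (neg_nonneg.2 (not_lt.1 hn))]
  have hb : (h ⬝ᵥ x)⁻¹ • x ∈ convexHull ℝ (Set.range fun j => (e j).1) := by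
    have h2 : (h ⬝ᵥ x)⁻¹ • x ∈ base C h := ⟨H.smul_cl (inv_pos.2 hpos) hx, by
      change h ⬝ᵥ _ = 1
      rw [dotProduct_smul, smul_eq_mul, inv_mul_cancel₀ hpos.ne']⟩
    have h3 : (Set.range fun j => (e j).1) = S := by
      ext s
      exact ⟨fun ⟨j, hj⟩ => hj ▸ (e j).2, fun hs => ⟨e.symm ⟨s, hs⟩, by simp⟩⟩
    rw [h3, ← hP]
    exact ⟨H.base_sub h2, h2.2⟩
  rw [convexHull_range_eq_exists_affineCombination] at hb
  obtain ⟨s, a, ha, h1, hs⟩ := hb
  rw [Finset.affineCombination_eq_linear_combination _ _ _ h1] at hs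
  refine ⟨fun j => if j ∈ s then (h ⬝ᵥ x) * a j / t else 0, fun j => ?_, ?_⟩
  · dsimp only
    split_ifs with hj
    · have := ha j hj
      positivity
    · exact le_rfl
  · have h4 : x = (h ⬝ᵥ x) • ∑ j ∈ s, a j • (e j).1 := by
      rw [hs, smul_smul, mul_inv_cancel₀ hpos.ne', one_smul]
    refine h4.trans ?_
    simp only [smul_smul, ite_mul, zero_mul, ite_smul, zero_smul, Finset.sum_ite_mem,
      Finset.univ_inter, div_mul_cancel₀ _ hkq.ne', Finset.smul_sum]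

end Crit

end P277Z.Cvx
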