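import Mathlib

/-!
# Rational polyhedral cones: Minkowski-Weyl and Gordan's lemma
-/

namespace P277Z.Gor

open Finset

variable {ι : Type*}

/-- The real vector of an integer vector. -/
def toR (z : ι → ℤ) : ι → ℝ := fun i => (z i : ℝ)

/-- The cone spanned by finitely many integer vectors. -/
def cone (s : Finset (ι → ℤ)) : Set (ι → ℝ) :=
  {x | ∃ t : (ι → ℤ) → ℝ, (∀ v, 0 ≤ t v) ∧ x = ∑ v ∈ s, t v • toR v}

/-- The pairing of an integer functional with a real vector. -/
def pr [Fintype ι] (a : ι → ℤ) (x : ι → ℝ) : ℝ := ∑ i, (a i : ℝ) * x i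

/-- The cone cut out by finitely many integer functionals. -/
def hcone [Fintype ι] (T : Finset (ι → ℤ)) : Set (ι → ℝ) := {x | ∀ a ∈ T, 0 ≤ pr a x}

@[simp] theorem toR_apply (z : ι → ℤ) (i : ι) : toR z i = (z i : ℝ) := rfl

@[simp] theorem toR_zero : toR (0 : ι → ℤ) = 0 := by ext i; simp

theorem toR_add (z w : ι → ℤ) : toR (z + w) = toR z + toR w := by ext i; simp

theorem toR_sub (z w : ι → ℤ) : toR (z - w) = toR z - toR w := by ext i; simp

theorem toR_neg (z : ι → ℤ) : toR (-z) = - toR z := by ext i; simp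

theorem toR_zsmul (n : ℤ) (z : ι → ℤ) : toR (n • z) = (n : ℝ) • toR z := by ext i; simp

theorem toR_nsmul (n : ℕ) (z : ι → ℤ) : toR (n • z) = (n : ℝ) • toR z := by ext i; simp

theorem toR_sum {α : Type*} (s : Finset α) (f : α → ι → ℤ) :
    toR (∑ a ∈ s, f a) = ∑ a ∈ s, toR (f a) := by
  ext i; simp [Finset.sum_apply]

theorem toR_injective : Function.Injective (toR : (ι → ℤ) → ι → ℝ) := by
  intro z w h
  ext i
  have := congrFun h i
  simpa using this

theorem zero_mem_cone (s : Finset (ι → ℤ)) : (0 : ι → ℝ) ∈ cone s :=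
  ⟨fun _ => 0, fun _ => le_rfl, by simp⟩

theorem add_mem_cone {s : Finset (ι → ℤ)} {x y : ι → ℝ} (hx : x ∈ cone s) (hy : y ∈ cone s) :
    x + y ∈ cone s := by
  obtain ⟨t, ht, rfl⟩ := hx
  obtain ⟨u, hu, rfl⟩ := hy
  exact ⟨fun v => t v + u v, fun v => add_nonneg (ht v) (hu v), by
    simp [add_smul, Finset.sum_add_distrib]⟩

theorem smul_mem_cone {s : Finset (ι → ℤ)} {x : ι → ℝ} (hx : x ∈ cone s) {c : ℝ} (hc : 0 ≤ c) :
    c • x ∈ cone s := by
  obtain ⟨t, ht, rfl⟩ := hx
  exact ⟨fun v => c * t v, fun v => mul_nonneg hc (ht v), by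
    simp [Finset.smul_sum, mul_smul]⟩

theorem sum_mem_cone {s : Finset (ι → ℤ)} {α : Type*} (F : Finset α) (x : α → ι → ℝ)
    (hx : ∀ a ∈ F, x a ∈ cone s) : ∑ a ∈ F, x a ∈ cone s :=
  Finset.sum_induction x (· ∈ cone s) (fun _ _ => add_mem_cone) (zero_mem_cone s) hx

theorem toR_mem_cone {s : Finset (ι → ℤ)} {v : ι → ℤ} (hv : v ∈ s) : toR v ∈ cone s := by
  classical
  refine ⟨fun w => if w = v then 1 else 0, fun w => by
    show 0 ≤ (if w = v then (1 : ℝ) else 0)
    split_ifs <;> norm_num, ?_⟩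
  simp [ite_smul, hv]

theorem convex_cone (s : Finset (ι → ℤ)) : Convex ℝ (cone s) :=
  fun _ hx _ hy _ _ ha hb _ => add_mem_cone (smul_mem_cone hx ha) (smul_mem_cone hy hb)

/-- `cone s` is the least set containing `s` and `0`, closed under sums and nonnegative scalars. -/
theorem cone_subset {s : Finset (ι → ℤ)} {C : Set (ι → ℝ)} (h0 : (0 : ι → ℝ) ∈ C)
    (hadd : ∀ x ∈ C, ∀ y ∈ C, x + y ∈ C) (hsm : ∀ x ∈ C, ∀ c : ℝ, 0 ≤ c → c • x ∈ C)
    (hs : ∀ v ∈ s, toR v ∈ C) : cone s ⊆ C := by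
  rintro x ⟨t, ht, rfl⟩
  exact Finset.sum_induction _ (· ∈ C) (fun a b ha hb => hadd a ha b hb) h0
    fun v hv => hsm _ (hs v hv) _ (ht v)

theorem cone_subset_cone {s s' : Finset (ι → ℤ)} (hs : ∀ v ∈ s, toR v ∈ cone s') :
    cone s ⊆ cone s' :=
  cone_subset (zero_mem_cone _) (fun _ hx _ hy => add_mem_cone hx hy)
    (fun _ hx _ hc => smul_mem_cone hx hc) hs

theorem cone_mono {s s' : Finset (ι → ℤ)} (h : s ⊆ s') : cone s ⊆ cone s' :=
  cone_subset_cone fun _ hv => toR_mem_cone (h hv)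

theorem cone_empty : cone (∅ : Finset (ι → ℤ)) = {0} := by
  ext x
  constructor
  · rintro ⟨t, _, rfl⟩; simp
  · rintro rfl; exact zero_mem_cone _

theorem mem_cone_insert [DecidableEq (ι → ℤ)] {s : Finset (ι → ℤ)} {v : ι → ℤ} {y : ι → ℝ} :
    y ∈ cone (insert v s) ↔ ∃ t : ℝ, 0 ≤ t ∧ y - t • toR v ∈ cone s := by
  constructor
  · intro hy
    have : cone (insert v s) ⊆ {y | ∃ t : ℝ, 0 ≤ t ∧ y - t • toR v ∈ cone s} := by
      refine cone_subset ⟨0, le_rfl, by simpa using zero_mem_cone s⟩ ?_ ?_ ?_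
      · rintro x ⟨t, ht, hx⟩ y ⟨u, hu, hy⟩
        refine ⟨t + u, add_nonneg ht hu, ?_⟩
        have := add_mem_cone hx hy
        convert this using 1
        rw [add_smul]; abel
      · rintro x ⟨t, ht, hx⟩ c hc
        refine ⟨c * t, mul_nonneg hc ht, ?_⟩
        have := smul_mem_cone hx hc
        convert this using 1
        rw [smul_sub, mul_smul]
      · intro w hw
        rcases Finset.mem_insert.1 hw with rfl | hw
        · exact ⟨1, zero_le_one, by simpa using zero_mem_cone s⟩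
        · exact ⟨0, le_rfl, by simpa using toR_mem_cone hw⟩
    exact this hy
  · rintro ⟨t, ht, hy⟩
    have h1 := cone_mono (Finset.subset_insert v s) hy
    have h2 := smul_mem_cone (toR_mem_cone (Finset.mem_insert_self v s)) ht
    simpa using add_mem_cone h1 h2

section Fin

variable [Fintype ι]

theorem pr_add (a : ι → ℤ) (x y : ι → ℝ) : pr a (x + y) = pr a x + pr a y := by
  simp [pr, mul_add, Finset.sum_add_distrib]

theorem pr_sub (a : ι → ℤ) (x y : ι → ℝ) : pr a (x - y) = pr a x - pr a y := by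
  simp [pr, mul_sub, Finset.sum_sub_distrib]

theorem pr_smul (a : ι → ℤ) (c : ℝ) (x : ι → ℝ) : pr a (c • x) = c * pr a x := by
  simp only [pr, Finset.mul_sum, Pi.smul_apply, smul_eq_mul]
  exact Finset.sum_congr rfl fun i _ => by ring

@[simp] theorem pr_zero (a : ι → ℤ) : pr a 0 = 0 := by simp [pr]

theorem pr_comm (a b : ι → ℤ) : pr a (toR b) = pr b (toR a) := by
  simp only [pr, toR_apply]
  exact Finset.sum_congr rfl fun i _ => by ring

theorem pr_toR (a b : ι → ℤ) : pr a (toR b) = ((∑ i, a i * b i : ℤ) : ℝ) := by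
  simp [pr]

theorem pr_comb (m n : ℤ) (a b : ι → ℤ) (x : ι → ℝ) :
    pr (m • b - n • a) x = m * pr b x - n * pr a x := by
  simp only [pr, Finset.mul_sum, ← Finset.sum_sub_distrib, Pi.sub_apply, Pi.smul_apply,
    smul_eq_mul, Int.cast_sub, Int.cast_mul]
  exact Finset.sum_congr rfl fun i _ => by ring

theorem continuous_pr (a : ι → ℤ) : Continuous (pr a) := by
  unfold pr; fun_prop

theorem zero_mem_hcone (T : Finset (ι → ℤ)) : (0 : ι → ℝ) ∈ hcone T := fun a _ => by simp

theorem add_mem_hcone {T : Finset (ι → ℤ)} {x y : ι → ℝ} (hx : x ∈ hcone T) (hy : y ∈ hcone T) :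
    x + y ∈ hcone T := fun a ha => by
  rw [pr_add]; exact add_nonneg (hx a ha) (hy a ha)

theorem smul_mem_hcone {T : Finset (ι → ℤ)} {x : ι → ℝ} (hx : x ∈ hcone T) {c : ℝ} (hc : 0 ≤ c) :
    c • x ∈ hcone T := fun a ha => by
  rw [pr_smul]; exact mul_nonneg hc (hx a ha)

theorem isClosed_hcone (T : Finset (ι → ℤ)) : IsClosed (hcone T) := by
  have : hcone T = ⋂ a ∈ T, {x | 0 ≤ pr a x} := by ext x; simp [hcone]
  rw [this]
  exact isClosed_biInter fun a _ => isClosed_le continuous_const (continuous_pr a)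

theorem hcone_union [DecidableEq (ι → ℤ)] (T T' : Finset (ι → ℤ)) :
    hcone (T ∪ T') = hcone T ∩ hcone T' := by
  ext x
  simp only [hcone, Finset.mem_union, Set.mem_ofPred_eq, Set.mem_inter_iff]
  exact ⟨fun h => ⟨fun a ha => h a (Or.inl ha), fun a ha => h a (Or.inr ha)⟩,
    fun h a ha => ha.elim (h.1 a) (h.2 a)⟩

theorem cone_subset_hcone {s T : Finset (ι → ℤ)} (h : ∀ v ∈ s, toR v ∈ hcone T) :
    cone s ⊆ hcone T :=
  cone_subset (zero_mem_hcone T) (fun _ hx _ hy => add_mem_hcone hx hy)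
    (fun _ hx _ hc => smul_mem_hcone hx hc) h

/-- One Fourier-Motzkin step. -/
theorem fm_step (T : Finset (ι → ℤ)) (v : ι → ℤ) :
    ∃ T' : Finset (ι → ℤ), ∀ y, y ∈ hcone T' ↔ ∃ t : ℝ, 0 ≤ t ∧ y - t • toR v ∈ hcone T := by
  classical
  let e : (ι → ℤ) → ℤ := fun a => ∑ i, a i * v i
  have he : ∀ a, pr a (toR v) = (e a : ℝ) := fun a => pr_toR a v
  let P := T.filter fun a => 0 < e a
  let N := T.filter fun a => e a < 0
  refine ⟨T.filter (fun a => 0 ≤ e a) ∪
    (P ×ˢ N).image (fun p => e p.1 • p.2 - e p.2 • p.1), fun y => ⟨fun hy => ?_, ?_⟩⟩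
  · have h1 : ∀ a ∈ T, 0 ≤ e a → 0 ≤ pr a y := fun a ha h =>
      hy a (Finset.mem_union_left _ (Finset.mem_filter.2 ⟨ha, h⟩))
    have h2 : ∀ a ∈ P, ∀ b ∈ N, 0 ≤ (e a : ℝ) * pr b y - e b * pr a y := fun a ha b hb => by
      rw [← pr_comb]
      exact hy _ (Finset.mem_union_right _ (Finset.mem_image.2
        ⟨(a, b), Finset.mem_product.2 ⟨ha, hb⟩, rfl⟩))
    let U : Finset ℝ := insert 0 (N.image fun b => pr b y / e b)
    have hU : U.Nonempty := Finset.insert_nonempty _ _
    refine ⟨U.max' hU, U.le_max' _ (Finset.mem_insert_self _ _), fun a ha => ?_⟩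
    rw [pr_sub, pr_smul, he]
    rcases lt_trichotomy (e a) 0 with h | h | h
    · have h3 : pr a y / e a ≤ U.max' hU := U.le_max' _ (Finset.mem_insert_of_mem
        (Finset.mem_image.2 ⟨a, Finset.mem_filter.2 ⟨ha, h⟩, rfl⟩))
      have h4 : (e a : ℝ) < 0 := by exact_mod_cast h
      rw [div_le_iff_of_neg h4] at h3
      linarith
    · have := h1 a ha h.ge
      rw [h]; simpa using this
    · have h4 : (0 : ℝ) < e a := by exact_mod_cast h
      rcases Finset.mem_insert.1 (U.max'_mem hU) with h5 | h5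
      · rw [h5]; simpa using h1 a ha h.le
      · obtain ⟨b, hb, h6⟩ := Finset.mem_image.1 h5
        rw [← h6]
        have h7 : (e b : ℝ) < 0 := by exact_mod_cast (Finset.mem_filter.1 hb).2
        have h8 := h2 a (Finset.mem_filter.2 ⟨ha, h⟩) b hb
        have h9 : pr b y / e b * e a = (e a * pr b y) / e b := by ring
        rw [h9, sub_nonneg, div_le_iff_of_neg h7]
        linarith
  · rintro ⟨t, ht, hy⟩ c hc
    have h1 : ∀ a ∈ T, t * e a ≤ pr a y := fun a ha => by
      have := hy a ha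
      rw [pr_sub, pr_smul, he] at this
      linarith
    rcases Finset.mem_union.1 hc with hc | hc
    · obtain ⟨hc, h⟩ := Finset.mem_filter.1 hc
      have h4 : (0 : ℝ) ≤ e c := by exact_mod_cast h
      exact (mul_nonneg ht h4).trans (h1 c hc)
    · obtain ⟨⟨a, b⟩, hab, rfl⟩ := Finset.mem_image.1 hc
      obtain ⟨ha, hb⟩ := Finset.mem_product.1 hab
      obtain ⟨ha, ha'⟩ := Finset.mem_filter.1 ha
      obtain ⟨hb, hb'⟩ := Finset.mem_filter.1 hb
      have h4 : (0 : ℝ) < e a := by exact_mod_cast ha'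
      have h7 : (e b : ℝ) < 0 := by exact_mod_cast hb'
      simp only
      rw [pr_comb]
      nlinarith [mul_le_mul_of_nonneg_left (h1 b hb) h4.le,
        mul_le_mul_of_nonneg_left (h1 a ha) (neg_nonneg.2 h7.le)]

/-- Weyl: a cone on finitely many integer vectors is cut out by finitely many integer
functionals. -/
theorem exists_hcone (s : Finset (ι → ℤ)) : ∃ T : Finset (ι → ℤ), cone s = hcone T := by
  classical
  induction s using Finset.induction_on with
  | empty =>
    refine ⟨(univ.image fun i => Pi.single i 1) ∪ (univ.image fun i => Pi.single i (-1)), ?_⟩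
    rw [cone_empty]
    ext x
    constructor
    · rintro rfl; exact zero_mem_hcone _
    · intro hx
      have hp : ∀ (i : ι) (c : ℤ), pr (Pi.single i c) x = c * x i := fun i c => by
        rw [pr, Finset.sum_eq_single i] <;> simp +contextual [Pi.single_eq_of_ne]
      ext i
      have h1 := hx _ (Finset.mem_union_left _ (Finset.mem_image.2 ⟨i, Finset.mem_univ _, rfl⟩))
      have h2 := hx _ (Finset.mem_union_right _ (Finset.mem_image.2 ⟨i, Finset.mem_univ _, rfl⟩))
      rw [hp] at h1 h2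
      simp only [Int.cast_one, one_mul, Int.cast_neg, neg_mul] at h1 h2
      simp only [Pi.zero_apply]
      linarith
  | insert v s _ ih =>
    obtain ⟨T, hT⟩ := ih
    obtain ⟨T', hT'⟩ := fm_step T v
    exact ⟨T', Set.ext fun y => by rw [mem_cone_insert, hT', hT]⟩

/-- Minkowski: a cone cut out by finitely many integer functionals is spanned by finitely many
integer vectors. -/
theorem exists_cone (T : Finset (ι → ℤ)) : ∃ s : Finset (ι → ℤ), hcone T = cone s := by
  obtain ⟨s, hs⟩ := exists_hcone T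
  obtain ⟨T', hT'⟩ := exists_hcone s
  refine ⟨s, Set.Subset.antisymm (fun x hx => ?_) (cone_subset_hcone fun v hv a ha => ?_)⟩
  · rw [hT']
    intro b hb
    have h1 : toR b ∈ cone T := by
      rw [hs]
      intro v hv
      rw [pr_comm]
      have : toR v ∈ hcone T' := hT' ▸ toR_mem_cone hv
      exact this b hb
    obtain ⟨t, ht, h2⟩ := h1
    have h3 : pr b x = ∑ a ∈ T, t a * pr a x := by
      have h4 : ∀ i, (b i : ℝ) = ∑ a ∈ T, t a * a i := fun i => by
        have := congrFun h2 i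
        simpa [Finset.sum_apply] using this
      simp only [pr, h4, Finset.sum_mul, Finset.mul_sum]
      rw [Finset.sum_comm]
      exact Finset.sum_congr rfl fun a _ => Finset.sum_congr rfl fun i _ => by ring
    rw [h3]
    exact Finset.sum_nonneg fun a ha => mul_nonneg (ht a) (hx a ha)
  · rw [pr_comm]
    have : toR a ∈ hcone s := hs ▸ toR_mem_cone ha
    exact this v hv

theorem isClosed_cone (s : Finset (ι → ℤ)) : IsClosed (cone s) := by
  obtain ⟨T, hT⟩ := exists_hcone s
  rw [hT]; exact isClosed_hcone T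

/-- The intersection of two rational polyhedral cones is one. -/
theorem exists_cone_inter (s s' : Finset (ι → ℤ)) :
    ∃ r : Finset (ι → ℤ), cone s ∩ cone s' = cone r := by
  classical
  obtain ⟨T, hT⟩ := exists_hcone s
  obtain ⟨T', hT'⟩ := exists_hcone s'
  obtain ⟨r, hr⟩ := exists_cone (T ∪ T')
  exact ⟨r, by rw [hT, hT', ← hcone_union, hr]⟩

end Fin

/-- The monoid of lattice points of `cone s`. -/
def latt (s : Finset (ι → ℤ)) : AddSubmonoid (ι → ℤ) where
  carrier := {z | toR z ∈ cone s}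
  zero_mem' := by simpa using zero_mem_cone s
  add_mem' := fun {a b} ha hb => by
    simp only [Set.mem_ofPred_eq, toR_add]
    exact add_mem_cone ha hb

theorem mem_latt {s : Finset (ι → ℤ)} {z : ι → ℤ} : z ∈ latt s ↔ toR z ∈ cone s := Iff.rfl

/-- Gordan's lemma. -/
theorem gordanV [Finite ι] (s : Finset (ι → ℤ)) : (latt s).FG := by
  classical
  let B : ι → ℤ := fun i => ∑ v ∈ s, |v i|
  have hF : {r : ι → ℤ | r ∈ latt s ∧ ∀ i, r i ∈ Set.Icc (-B i) (B i)}.Finite :=
    (Set.Finite.pi' (fun i => Set.finite_Icc (-B i) (B i))).subset fun r hr => hr.2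
  rw [AddSubmonoid.fg_iff]
  refine ⟨↑s ∪ {r | r ∈ latt s ∧ ∀ i, r i ∈ Set.Icc (-B i) (B i)}, le_antisymm ?_ ?_,
    s.finite_toSet.union hF⟩
  · rw [AddSubmonoid.closure_le]
    rintro r (hr | hr)
    · exact toR_mem_cone hr
    · exact hr.1
  · rintro z ⟨t, ht, hz⟩
    let r : ι → ℤ := z - ∑ v ∈ s, ⌊t v⌋₊ • v
    have hr : toR r = ∑ v ∈ s, (t v - ⌊t v⌋₊) • toR v := by
      simp only [r, toR_sub, toR_sum, toR_nsmul, hz, sub_smul, Finset.sum_sub_distrib]
    have h0 : ∀ v, 0 ≤ t v - ⌊t v⌋₊ := fun v => sub_nonneg.2 (Nat.floor_le (ht v))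
    have h1 : ∀ v, t v - ⌊t v⌋₊ ≤ 1 := fun v => by
      have := Nat.lt_floor_add_one (t v); linarith
    have hz' : z = r + ∑ v ∈ s, ⌊t v⌋₊ • v := by simp [r]
    rw [hz']
    refine AddSubmonoid.add_mem _ (AddSubmonoid.subset_closure (Or.inr ⟨⟨_, h0, hr⟩, fun i => ?_⟩))
      (AddSubmonoid.sum_mem _ fun v hv => nsmul_mem (AddSubmonoid.subset_closure
        (Set.mem_union_left _ (Finset.mem_coe.2 hv))) _)
    rw [Set.mem_Icc, ← abs_le]
    have h2 : (r i : ℝ) = ∑ v ∈ s, (t v - ⌊t v⌋₊) * (v i : ℝ) := by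
      have := congrFun hr i
      simpa [Finset.sum_apply] using this
    have h3 : |(r i : ℝ)| ≤ ∑ v ∈ s, |(v i : ℝ)| := by
      rw [h2]
      refine (Finset.abs_sum_le_sum_abs _ _).trans (Finset.sum_le_sum fun v _ => ?_)
      rw [abs_mul, abs_of_nonneg (h0 v)]
      exact mul_le_of_le_one_left (abs_nonneg _) (h1 v)
    have h4 : ((|r i| : ℤ) : ℝ) ≤ (B i : ℝ) := by
      simpa [B] using h3
    exact_mod_cast h4

/-- Gordan's lemma for any monoid of lattice points of a rational polyhedral cone. -/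
theorem gordan_of_cone [Finite ι] (S : AddSubmonoid (ι → ℤ)) (s : Finset (ι → ℤ))
    (h : ∀ z, z ∈ S ↔ toR z ∈ cone s) : S.FG := by
  have : S = latt s := AddSubmonoid.ext h
  rw [this]; exact gordanV s

/-- Gordan's lemma, inequality form. -/
theorem gordanH [Fintype ι] (S : AddSubmonoid (ι → ℤ)) (T : Finset (ι → ℤ))
    (h : ∀ z, z ∈ S ↔ ∀ a ∈ T, 0 ≤ ∑ i, a i * z i) : S.FG := by
  obtain ⟨s, hs⟩ := exists_cone T
  refine gordan_of_cone S s fun z => ?_
  rw [h, ← hs]
  refine forall₂_congr fun a _ => ?_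
  rw [pr_toR]
  exact_mod_cast Iff.rfl

section Maps

variable [Fintype ι] {κ : Type*} [Fintype κ]

/-- The real linear map of an integer matrix. -/
def mat (A : κ → ι → ℤ) (x : ι → ℝ) : κ → ℝ := fun j => pr (A j) x

omit [Fintype κ] in
theorem mat_toR (A : κ → ι → ℤ) (z : ι → ℤ) : mat A (toR z) = toR fun j => ∑ i, A j i * z i := by
  ext j; simp [mat, pr]

omit [Fintype κ] in
theorem mat_add (A : κ → ι → ℤ) (x y : ι → ℝ) : mat A (x + y) = mat A x + mat A y := by
  ext j; simp [mat, pr_add]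

omit [Fintype κ] in
theorem mat_smul (A : κ → ι → ℤ) (c : ℝ) (x : ι → ℝ) : mat A (c • x) = c • mat A x := by
  ext j; simp [mat, pr_smul]

omit [Fintype κ] in
theorem mat_zero (A : κ → ι → ℤ) : mat A 0 = 0 := by
  ext j; simp [mat]

theorem pr_mat (A : κ → ι → ℤ) (b : κ → ℤ) (x : ι → ℝ) :
    pr b (mat A x) = pr (fun i => ∑ j, b j * A j i) x := by
  simp only [pr, mat, Finset.mul_sum, Int.cast_sum, Int.cast_mul, Finset.sum_mul]
  rw [Finset.sum_comm]
  exact Finset.sum_congr rfl fun i _ => Finset.sum_congr rfl fun j _ => by ring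

/-- Preimages of rational polyhedral cones under integer matrices. -/
theorem exists_cone_preimage (A : κ → ι → ℤ) (s : Finset (κ → ℤ)) :
    ∃ r : Finset (ι → ℤ), mat A ⁻¹' cone s = cone r := by
  classical
  obtain ⟨T, hT⟩ := exists_hcone s
  obtain ⟨r, hr⟩ := exists_cone (T.image fun b i => ∑ j, b j * A j i)
  refine ⟨r, ?_⟩
  rw [← hr, hT]
  ext x
  simp only [hcone, Set.mem_preimage, Set.mem_ofPred_eq, Finset.forall_mem_image, pr_mat]

omit [Fintype κ] in
/-- Images of rational polyhedral cones under integer matrices. -/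
theorem exists_cone_image (A : κ → ι → ℤ) (s : Finset (ι → ℤ)) :
    ∃ r : Finset (κ → ℤ), mat A '' cone s = cone r := by
  classical
  refine ⟨s.image fun z j => ∑ i, A j i * z i, Set.Subset.antisymm ?_ ?_⟩
  · rw [Set.image_subset_iff]
    refine cone_subset ?_ ?_ ?_ ?_
    · simp only [Set.mem_preimage, mat_zero]; exact zero_mem_cone _
    · intro x hx y hy
      simp only [Set.mem_preimage, mat_add] at *
      exact add_mem_cone hx hy
    · intro x hx c hc
      simp only [Set.mem_preimage, mat_smul] at *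
      exact smul_mem_cone hx hc
    · intro v hv
      simp only [Set.mem_preimage, mat_toR]
      exact toR_mem_cone (Finset.mem_image_of_mem _ hv)
  · refine cone_subset ⟨0, zero_mem_cone _, mat_zero A⟩ ?_ ?_ ?_
    · rintro _ ⟨x, hx, rfl⟩ _ ⟨y, hy, rfl⟩
      exact ⟨x + y, add_mem_cone hx hy, mat_add A x y⟩
    · rintro _ ⟨x, hx, rfl⟩ c hc
      exact ⟨c • x, smul_mem_cone hx hc, mat_smul A c x⟩
    · intro v hv
      obtain ⟨z, hz, rfl⟩ := Finset.mem_image.1 hv
      exact ⟨toR z, toR_mem_cone hz, mat_toR A z⟩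

omit [Fintype κ] in
/-- Gordan's lemma for a lattice mapping to the ambient lattice: the monoid of all `z` with
`A z` in the cone is finitely generated. -/
theorem gordan_comap [Finite κ] (A : κ → ι → ℤ) (s : Finset (κ → ℤ)) (S : AddSubmonoid (ι → ℤ))
    (h : ∀ z, z ∈ S ↔ toR (fun j => ∑ i, A j i * z i) ∈ cone s) : S.FG := by
  have := Fintype.ofFinite κ
  obtain ⟨r, hr⟩ := exists_cone_preimage A s
  refine gordan_of_cone S r fun z => ?_
  rw [h, ← hr, Set.mem_preimage, mat_toR]

omit [Fintype ι] in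
/-- Gordan's lemma in the lattice `k ℤ^ι`. -/
theorem gordan_dvd [Finite ι] (k : ℕ) (hk : 0 < k) (s : Finset (ι → ℤ)) (S : AddSubmonoid (ι → ℤ))
    (h : ∀ z, z ∈ S ↔ toR z ∈ cone s ∧ ∀ i, (k : ℤ) ∣ z i) : S.FG := by
  have hS : S = (latt s).map (nsmulAddMonoidHom k) := by
    ext z
    rw [h, AddSubmonoid.mem_map]
    have hk' : (0 : ℝ) < k := by exact_mod_cast hk
    constructor
    · rintro ⟨hz, hd⟩
      choose w hw using hd
      have hzw : z = k • w := by ext i; simp [hw i]
      refine ⟨w, ?_, by simp [hzw]⟩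
      have := smul_mem_cone hz (inv_nonneg.2 hk'.le)
      rw [hzw, toR_nsmul, smul_smul, inv_mul_cancel₀ hk'.ne', one_smul] at this
      exact this
    · rintro ⟨w, hw, rfl⟩
      refine ⟨?_, fun i => by simp⟩
      have : toR (nsmulAddMonoidHom k w) = (k : ℝ) • toR w := toR_nsmul k w
      rw [this]
      exact smul_mem_cone hw hk'.le
  rw [hS]
  exact (gordanV s).map _

end Maps

section Rat

/-- Clearing denominators of one rational vector. -/
theorem exists_clear [Finite ι] (q : ι → ℚ) :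
    ∃ (d : ℕ) (z : ι → ℤ), 0 < d ∧ ∀ i, (z i : ℚ) = d * q i := by
  classical
  have := Fintype.ofFinite ι
  refine ⟨∏ i, (q i).den, fun i => (∏ j ∈ univ.erase i, ((q j).den : ℤ)) * (q i).num,
    Finset.prod_pos fun i _ => (q i).den_pos, fun i => ?_⟩
  rw [← Finset.prod_erase_mul _ _ (Finset.mem_univ i)]
  push_cast
  rw [mul_assoc, Rat.den_mul_eq_num]

/-- The cone on a finite family of rational vectors is the cone on finitely many integer
vectors. -/
theorem exists_cone_ratV [Finite ι] {α : Type*} [Fintype α] (q : α → ι → ℚ) :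
    ∃ s : Finset (ι → ℤ), {x : ι → ℝ | ∃ t : α → ℝ, (∀ a, 0 ≤ t a) ∧
      ∀ i, x i = ∑ a, t a * (q a i : ℝ)} = cone s := by
  classical
  choose d z hd hz using fun a => exists_clear (q a)
  have hz' : ∀ a i, (z a i : ℝ) = d a * (q a i : ℝ) := fun a i => by exact_mod_cast hz a i
  have hd' : ∀ a, (0 : ℝ) < d a := fun a => by exact_mod_cast hd a
  refine ⟨univ.image z, Set.Subset.antisymm ?_ (cone_subset ?_ ?_ ?_ ?_)⟩
  · rintro x ⟨t, ht, hx⟩
    have : x = ∑ a, (t a / d a) • toR (z a) := by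
      ext i
      rw [hx, Finset.sum_apply]
      refine Finset.sum_congr rfl fun a _ => ?_
      have := (hd' a).ne'
      simp only [Pi.smul_apply, toR_apply, smul_eq_mul, hz']
      field_simp
    rw [this]
    exact sum_mem_cone _ _ fun a _ => smul_mem_cone
      (toR_mem_cone (Finset.mem_image_of_mem _ (Finset.mem_univ a))) (div_nonneg (ht a) (hd' a).le)
  · exact ⟨0, fun _ => le_rfl, fun i => by simp⟩
  · rintro x ⟨t, ht, hx⟩ y ⟨u, hu, hy⟩
    exact ⟨t + u, fun a => add_nonneg (ht a) (hu a), fun i => by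
      simp [hx, hy, add_mul, Finset.sum_add_distrib]⟩
  · rintro x ⟨t, ht, hx⟩ c hc
    exact ⟨c • t, fun a => mul_nonneg hc (ht a), fun i => by
      simp [hx, Finset.mul_sum, mul_assoc]⟩
  · intro v hv
    obtain ⟨a, _, rfl⟩ := Finset.mem_image.1 hv
    refine ⟨Pi.single a (d a), fun b => ?_, fun i => ?_⟩
    · by_cases h : b = a
      · subst h; simp
      · simp [Pi.single_eq_of_ne h]
    · rw [Finset.sum_eq_single a] <;> simp +contextual [hz', Pi.single_eq_of_ne]

/-- The cone cut out by a finite family of rational functionals. -/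
theorem exists_hcone_ratH [Fintype ι] {α : Type*} [Finite α] (u : α → ι → ℚ) :
    ∃ T : Finset (ι → ℤ), {x : ι → ℝ | ∀ a, 0 ≤ ∑ i, (u a i : ℝ) * x i} = hcone T := by
  classical
  have := Fintype.ofFinite α
  choose d z hd hz using fun a => exists_clear (u a)
  have hz' : ∀ a i, (z a i : ℝ) = d a * (u a i : ℝ) := fun a i => by exact_mod_cast hz a i
  have hd' : ∀ a, (0 : ℝ) < d a := fun a => by exact_mod_cast hd a
  refine ⟨univ.image z, Set.ext fun x => ?_⟩
  simp only [hcone, Set.mem_ofPred_eq, Finset.forall_mem_image, Finset.mem_univ, true_imp_iff]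
  refine forall_congr' fun a => ?_
  have : pr (z a) x = d a * ∑ i, (u a i : ℝ) * x i := by
    simp only [pr, hz', Finset.mul_sum, mul_assoc]
  rw [this, mul_nonneg_iff_of_pos_left (hd' a)]

/-- The cone cut out by a finite family of rational functionals is spanned by finitely many
integer vectors. -/
theorem exists_cone_ratH [Fintype ι] {α : Type*} [Finite α] (u : α → ι → ℚ) :
    ∃ s : Finset (ι → ℤ), {x : ι → ℝ | ∀ a, 0 ≤ ∑ i, (u a i : ℝ) * x i} = cone s := by
  obtain ⟨T, hT⟩ := exists_hcone_ratH u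
  obtain ⟨s, hs⟩ := exists_cone T
  exact ⟨s, hT.trans hs⟩

end Rat

/-- Gordan's lemma for monoids of natural vectors. -/
theorem gordan_nat [Finite ι] (s : Finset (ι → ℤ)) (S : AddSubmonoid (ι → ℕ))
    (h : ∀ z, z ∈ S ↔ (fun i => (z i : ℝ)) ∈ cone s) : S.FG := by
  classical
  have := Fintype.ofFinite ι
  let e : (ι → ℕ) →+ (ι → ℤ) :=
    { toFun := fun z i => (z i : ℤ), map_zero' := by ext i; simp, map_add' := fun a b => by
        ext i; simp }
  have he : Function.Injective e := fun a b hab => by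
    ext i
    have := congrFun hab i
    simpa [e] using this
  obtain ⟨r, hr⟩ := exists_cone_ratH (ι := ι) (fun j : ι => Pi.single j (1 : ℚ))
  obtain ⟨w, hw⟩ := exists_cone_inter s r
  refine AddSubmonoid.FG.map_injective e he (gordan_of_cone _ w fun z => ?_)
  rw [← hw, ← hr, AddSubmonoid.mem_map]
  have hp : ∀ (j : ι) (x : ι → ℝ), ∑ i, ((Pi.single j (1 : ℚ) : ι → ℚ) i : ℝ) * x i = x j :=
    fun j x => by rw [Finset.sum_eq_single j] <;> simp +contextual [Pi.single_eq_of_ne]
  simp only [Set.mem_inter_iff, Set.mem_ofPred_eq, hp, toR_apply]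
  constructor
  · rintro ⟨a, ha, rfl⟩
    refine ⟨?_, fun j => by simp [e]⟩
    have : toR (e a) = fun i => (a i : ℝ) := by ext i; simp [e]
    rw [this]; exact (h a).1 ha
  · rintro ⟨h1, h2⟩
    have h3 : ∀ j, 0 ≤ z j := fun j => by exact_mod_cast h2 j
    have h4 : e (fun i => (z i).toNat) = z := by ext i; simp [e, h3 i]
    refine ⟨fun i => (z i).toNat, (h _).2 ?_, h4⟩
    have : (fun i => (((z i).toNat : ℕ) : ℝ)) = toR z := by
      ext i
      have := Int.toNat_of_nonneg (h3 i)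
      rw [toR_apply]
      exact_mod_cast this
    rw [this]; exact h1

end P277Z.Gor
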