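import Vale.Agent.P277Z.Cvx.MW
import Vale.Agent.P277Z.Cvx.Gordan

/-! Cones over rational polytopes, conic rational polyhedra, and their lattice points. -/

namespace P277Z.Gor

open Finset P277Z.Cvx

variable {ι : Type*}

/-- The cone over a set, with the origin. -/
def ray (P : Set (ι → ℝ)) : Set (ι → ℝ) := {x | x = 0 ∨ ∃ t : ℝ, 0 < t ∧ ∃ p ∈ P, x = t • p}

theorem isInt_toR (z : ι → ℤ) : IsInt (toR z) := fun i => ⟨z i, rfl⟩

theorem exists_toR {x : ι → ℝ} (h : IsInt x) : ∃ z, x = toR z := by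
  choose z hz using h
  exact ⟨z, funext hz⟩

theorem zero_mem_ray (P : Set (ι → ℝ)) : (0 : ι → ℝ) ∈ ray P := Or.inl rfl

theorem subset_ray (P : Set (ι → ℝ)) : P ⊆ ray P :=
  fun p hp => Or.inr ⟨1, one_pos, p, hp, (one_smul _ _).symm⟩

theorem smul_mem_ray {P : Set (ι → ℝ)} {x : ι → ℝ} (hx : x ∈ ray P) {c : ℝ} (hc : 0 ≤ c) :
    c • x ∈ ray P := by
  rcases hc.eq_or_lt with rfl | hc
  · exact Or.inl (zero_smul _ _)
  rcases hx with rfl | ⟨t, ht, p, hp, rfl⟩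
  · exact Or.inl (smul_zero _)
  · exact Or.inr ⟨c * t, mul_pos hc ht, p, hp, smul_smul _ _ _⟩

theorem add_mem_ray {P : Set (ι → ℝ)} (hP : Convex ℝ P) {x y : ι → ℝ} (hx : x ∈ ray P)
    (hy : y ∈ ray P) : x + y ∈ ray P := by
  rcases hx with rfl | ⟨t, ht, p, hp, rfl⟩
  · simpa using hy
  rcases hy with rfl | ⟨u, hu, q, hq, rfl⟩
  · rw [add_zero]; exact Or.inr ⟨t, ht, p, hp, rfl⟩
  have h : 0 < t + u := add_pos ht hu
  refine Or.inr ⟨t + u, h, (t / (t + u)) • p + (u / (t + u)) • q,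
    hP hp hq (by positivity) (by positivity) (by field_simp), ?_⟩
  rw [smul_add, smul_smul, smul_smul, mul_div_cancel₀ _ h.ne', mul_div_cancel₀ _ h.ne']

theorem mem_ray_iff {P : Set (ι → ℝ)} (hP : P.Nonempty) {x : ι → ℝ} :
    x ∈ ray P ↔ ∃ t : ℝ, 0 ≤ t ∧ ∃ p ∈ P, x = t • p := by
  constructor
  · rintro (rfl | ⟨t, ht, h⟩)
    · obtain ⟨p, hp⟩ := hP
      exact ⟨0, le_rfl, p, hp, (zero_smul _ _).symm⟩
    · exact ⟨t, ht.le, h⟩
  · rintro ⟨t, ht, p, hp, rfl⟩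
    exact smul_mem_ray (subset_ray P hp) ht

/-- The cone over a rational polytope is spanned by integer vectors, all of them the multiples by
one natural number `d`, divisible by a given `k`, of points of the polytope. -/
theorem ray_eq_cone [Finite ι] {P : Set (ι → ℝ)} (hP : RatPolytope P) (k : ℕ) (hk : 0 < k) :
    ∃ (s : Finset (ι → ℤ)) (d : ℕ), 0 < d ∧ k ∣ d ∧ ray P = cone s ∧
      ∀ v ∈ s, (∀ i, (k : ℤ) ∣ v i) ∧ ∃ p ∈ P, toR v = (d : ℝ) • p := by
  classical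
  obtain ⟨T, hT, hr, rfl⟩ := hP
  obtain ⟨q, hq, hi⟩ := exists_den_set hT hr
  have hz : ∀ x : ι → ℝ, ∃ z : ι → ℤ, x ∈ T → (q : ℝ) • x = toR z := fun x => by
    by_cases hx : x ∈ T
    · obtain ⟨z, hz⟩ := exists_toR (hi x hx)
      exact ⟨z, fun _ => hz⟩
    · exact ⟨0, fun h => absurd h hx⟩
  choose z hz using hz
  have hd : (0 : ℝ) < (k * q : ℕ) := by exact_mod_cast Nat.mul_pos hk hq
  have h1 : ∀ x ∈ T, toR (k • z x) = ((k * q : ℕ) : ℝ) • x := fun x hx => by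
    rw [toR_nsmul, ← hz x hx, smul_smul, Nat.cast_mul]
  refine ⟨hT.toFinset.image fun x => k • z x, k * q, Nat.mul_pos hk hq, dvd_mul_right _ _,
    Set.Subset.antisymm ?_ (cone_subset (zero_mem_ray _)
      (fun _ hx _ hy => add_mem_ray (convex_convexHull ℝ T) hx hy)
      (fun _ hx _ hc => smul_mem_ray hx hc) fun v hv => ?_), fun v hv => ?_⟩
  · have h2 : convexHull ℝ T ⊆ cone (hT.toFinset.image fun x => k • z x) := by
      refine convexHull_min (fun x hx => ?_) (convex_cone _)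
      have h3 := smul_mem_cone (toR_mem_cone (Finset.mem_image_of_mem (fun x => k • z x)
        (hT.mem_toFinset.2 hx))) (inv_nonneg.2 hd.le)
      rwa [h1 x hx, smul_smul, inv_mul_cancel₀ hd.ne', one_smul] at h3
    rintro x (rfl | ⟨t, ht, p, hp, rfl⟩)
    · exact zero_mem_cone _
    · exact smul_mem_cone (h2 hp) ht.le
  · obtain ⟨x, hx, rfl⟩ := Finset.mem_image.1 hv
    rw [hT.mem_toFinset] at hx
    rw [h1 x hx]
    exact smul_mem_ray (subset_ray _ (subset_convexHull ℝ T hx)) hd.le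
  · obtain ⟨x, hx, rfl⟩ := Finset.mem_image.1 hv
    rw [hT.mem_toFinset] at hx
    exact ⟨fun i => by simp, x, subset_convexHull ℝ T hx, h1 x hx⟩

/-- Gordan's lemma for the cone over a rational polytope. -/
theorem gordan_ray [Finite ι] {P : Set (ι → ℝ)} (hP : RatPolytope P) (S : AddSubmonoid (ι → ℤ))
    (h : ∀ z, z ∈ S ↔ toR z ∈ ray P) : S.FG := by
  obtain ⟨s, -, -, -, hs, -⟩ := ray_eq_cone hP 1 one_pos
  exact gordan_of_cone S s (hs ▸ h)

variable [Fintype ι]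

theorem pr_eq_dot (a : ι → ℤ) (x : ι → ℝ) : pr a x = toR a ⬝ᵥ x := rfl

theorem ratPolyhedron_hcone (T : Finset (ι → ℤ)) : RatPolyhedron (hcone T) :=
  ratPolyhedron_biInter (P := fun a => {x | (fun _ => ((0 : ℚ) : ℝ)) x ≤ toR a ⬝ᵥ x})
    T.finite_toSet (fun a _ => (ratAff_const 0).le (ratAff_dot (isInt_toR a).isRat))
    |> fun h => by
      convert h using 1
      ext x
      simp [hcone, pr_eq_dot]

theorem ratPolyhedron_cone (s : Finset (ι → ℤ)) : RatPolyhedron (cone s) := by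
  obtain ⟨T, hT⟩ := exists_hcone s
  rw [hT]; exact ratPolyhedron_hcone T

theorem ratPolyhedron_ray {P : Set (ι → ℝ)} (hP : RatPolytope P) : RatPolyhedron (ray P) := by
  obtain ⟨s, -, -, -, hs, -⟩ := ray_eq_cone hP 1 one_pos
  rw [hs]; exact ratPolyhedron_cone s

/-- A nonempty rational polyhedron stable under positive scalars is spanned by finitely many
integer vectors. -/
theorem cone_of_ratPolyhedron {C : Set (ι → ℝ)} (hC : RatPolyhedron C) (hne : C.Nonempty)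
    (hsm : ∀ x ∈ C, ∀ t : ℝ, 0 < t → t • x ∈ C) : ∃ s : Finset (ι → ℤ), C = cone s := by
  obtain ⟨H, hH, hr, rfl⟩ := hC
  have := hH.to_subtype
  have hq : ∀ h : H, IsRat h.1.1 := fun h => (hr h.1 h.2).1
  choose u hu using hq
  obtain ⟨s, hs⟩ := exists_cone_ratH (fun (h : H) i => -u h i)
  refine ⟨s, ?_⟩
  rw [← hs]
  have hd : ∀ (h : H) (x : ι → ℝ), ∑ i, ((-u h i : ℚ) : ℝ) * x i = -(h.1.1 ⬝ᵥ x) := fun h x => by
    simp [dotProduct, hu h]
  have key : ∀ x : ι → ℝ, (∀ h ∈ H, h.1 ⬝ᵥ x ≤ h.2) → ∀ h ∈ H, h.1 ⬝ᵥ x ≤ 0 ∧ 0 ≤ h.2 := by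
    intro x hx h hh
    have h1 : ∀ t : ℝ, 0 < t → t * (h.1 ⬝ᵥ x) ≤ h.2 := fun t ht => by
      have := hsm x hx t ht h hh
      rwa [dotProduct_smul, smul_eq_mul] at this
    have h2 : h.1 ⬝ᵥ x ≤ 0 := by
      by_contra hc
      push Not at hc
      have := h1 ((|h.2| + 1) / (h.1 ⬝ᵥ x)) (by positivity)
      rw [div_mul_cancel₀ _ hc.ne'] at this
      linarith [le_abs_self h.2]
    refine ⟨h2, ?_⟩
    by_contra hc
    push Not at hc
    have h3 : 0 < 1 - h.1 ⬝ᵥ x := by linarith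
    have := h1 (-h.2 / (1 - h.1 ⬝ᵥ x)) (div_pos (by linarith) h3)
    rw [div_mul_eq_mul_div, div_le_iff₀ h3] at this
    nlinarith
  ext x
  simp only [Set.mem_ofPred_eq, hd, neg_nonneg]
  refine ⟨fun hx h => (key x hx h.1 h.2).1, fun hx h hh => ?_⟩
  obtain ⟨y, hy⟩ := hne
  exact (hx ⟨h, hh⟩).trans (key y hy h hh).2

/-- Gordan's lemma for a conic rational polyhedron. -/
theorem gordan_ratPolyhedron {C : Set (ι → ℝ)} (hC : RatPolyhedron C)
    (hsm : ∀ x ∈ C, ∀ t : ℝ, 0 < t → t • x ∈ C) (S : AddSubmonoid (ι → ℤ))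
    (h : ∀ z, z ∈ S ↔ toR z ∈ C) : S.FG := by
  obtain ⟨s, rfl⟩ := cone_of_ratPolyhedron hC ⟨_, (h 0).1 S.zero_mem⟩ hsm
  exact gordan_of_cone S s h

omit [Fintype ι] in
/-- Generators in explicit form: the lattice points of `cone s` are the natural combinations of
finitely many of them, among which are the elements of `s`. -/
theorem exists_gens [Finite ι] (s : Finset (ι → ℤ)) :
    ∃ g : Finset (ι → ℤ), s ⊆ g ∧ cone g = cone s ∧
      ∀ z, toR z ∈ cone s ↔ ∃ n : (ι → ℤ) → ℕ, z = ∑ v ∈ g, n v • v := by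
  classical
  obtain ⟨g, hg⟩ := gordanV s
  have h1 : ∀ v ∈ s ∪ g, toR v ∈ cone s := fun v hv => by
    rcases Finset.mem_union.1 hv with hv | hv
    · exact toR_mem_cone hv
    · have : v ∈ latt s := hg ▸ AddSubmonoid.subset_closure (Finset.mem_coe.2 hv)
      exact this
  refine ⟨s ∪ g, Finset.subset_union_left, Set.Subset.antisymm (cone_subset_cone h1)
    (cone_mono Finset.subset_union_left), fun z => ⟨fun hz => ?_, ?_⟩⟩
  · have h2 : z ∈ AddSubmonoid.closure (↑(s ∪ g) : Set (ι → ℤ)) :=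
      AddSubmonoid.closure_mono (by simp) (hg ▸ (mem_latt.2 hz) :)
    obtain ⟨n, -, hn⟩ := AddSubmonoid.mem_closure_finset.1 h2
    exact ⟨n, hn.symm⟩
  · rintro ⟨n, rfl⟩
    rw [toR_sum]
    exact sum_mem_cone _ _ fun v hv => by
      rw [toR_nsmul]; exact smul_mem_cone (h1 v hv) (Nat.cast_nonneg _)

omit [Fintype ι] in
/-- A lattice point of `cone s` has a multiple in the monoid generated by `s`. -/
theorem exists_nsmul_mem_closure [Finite ι] (s : Finset (ι → ℤ)) {z : ι → ℤ}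
    (hz : toR z ∈ cone s) :
    ∃ m : ℕ, 0 < m ∧ ∃ n : (ι → ℤ) → ℕ, m • z = ∑ v ∈ s, n v • v := by
  classical
  have := Fintype.ofFinite ι
  obtain ⟨t, ht, hz⟩ := hz
  let Q : Set (s → ℝ) := {u | ∀ v, 0 ≤ u v} ∩ {u | ∀ i, ∑ v, (v.1 i : ℝ) * u v = z i}
  have hQ : RatPolyhedron Q :=
    (ratPolyhedron_iInter (P := fun v => {u : s → ℝ | (fun _ => ((0 : ℚ) : ℝ)) u ≤ u v}) fun v =>
      (ratAff_const 0).le (ratAff_coord v)).inter
      (ratPolyhedron_iInter (P := fun i => {u : s → ℝ | (fun v : s => (v.1 i : ℝ)) ⬝ᵥ u =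
        (fun _ => (((z i : ℤ) : ℚ) : ℝ)) u}) fun i =>
        (ratAff_dot fun v => ⟨v.1 i, by simp⟩).eq (ratAff_const _))
    |> fun h => by
      convert h using 2 <;> ext u <;> simp [dotProduct]
  have hx : (fun v : s => t v) ∈ Q := by
    refine ⟨fun v => ht v, fun i => ?_⟩
    have := congrFun hz i
    simp only [toR_apply, Finset.sum_apply, Pi.smul_apply, smul_eq_mul] at this
    rw [this, ← Finset.sum_coe_sort s]
    exact Finset.sum_congr rfl fun v _ => mul_comm _ _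
  obtain ⟨y, ⟨hy0, hy⟩, m, hm, hi, -⟩ :=
    convexHull_nonempty_iff.1 ⟨_, hQ.dio hx one_pos one_pos⟩
  choose c hc using hi
  have hc0 : ∀ v, 0 ≤ c v := fun v => by
    have h1 : (0 : ℝ) ≤ c v := by
      rw [← hc v]; exact mul_nonneg (Nat.cast_nonneg m) (hy0 v)
    exact_mod_cast h1
  refine ⟨m, hm, fun v => if h : v ∈ s then (c ⟨v, h⟩).toNat else 0, ?_⟩
  apply toR_injective
  rw [toR_nsmul, toR_sum, ← Finset.sum_coe_sort s]
  ext i
  simp only [toR_nsmul, Pi.smul_apply, toR_apply, smul_eq_mul, Finset.sum_apply, Finset.coe_mem,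
    dif_pos, ← hy i, Finset.mul_sum]
  refine Finset.sum_congr rfl fun v _ => ?_
  have h1 : (((c v).toNat : ℕ) : ℝ) = (c v : ℝ) := by exact_mod_cast Int.toNat_of_nonneg (hc0 v)
  rw [h1, ← hc v]
  simp only [Pi.smul_apply, smul_eq_mul]
  ring

end P277Z.Gor
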