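import Vale.Agent.P277Z.Cvx.Dio

/-! Rational polytopes are the bounded rational polyhedra; stability properties. -/

namespace P277Z.Cvx

open Set Finset Filter Topology

variable {ι κ : Type*} [Fintype ι]

/-- rational affine function -/
def RatAff (φ : (ι → ℝ) → ℝ) : Prop :=
  ∃ (a : ι → ℝ) (c : ℝ), IsRat a ∧ (∃ q : ℚ, c = q) ∧ ∀ x, φ x = a ⬝ᵥ x + c

/-- rational affine map -/
def RatAffV (f : (ι → ℝ) → κ → ℝ) : Prop := ∀ j, RatAff fun x => f x j

theorem ratAff_const (q : ℚ) : RatAff fun _ : ι → ℝ => (q : ℝ) :=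
  ⟨0, q, isRat_zero, ⟨q, rfl⟩, by simp⟩

theorem ratAff_const' {c : ℝ} (hc : ∃ q : ℚ, c = q) : RatAff fun _ : ι → ℝ => c := by
  obtain ⟨q, rfl⟩ := hc
  exact ratAff_const q

theorem ratAff_dot {a : ι → ℝ} (ha : IsRat a) : RatAff fun x => a ⬝ᵥ x :=
  ⟨a, 0, ha, ⟨0, by simp⟩, by simp⟩

theorem ratAff_coord (i : ι) : RatAff fun x : ι → ℝ => x i := by
  classical
  refine ⟨Pi.single i 1, 0, fun j => ?_, ⟨0, by simp⟩, by simp⟩
  by_cases h : j = i
  · exact ⟨1, by simp [h]⟩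
  · exact ⟨0, by simp [h]⟩

theorem RatAff.add {φ ψ : (ι → ℝ) → ℝ} (h1 : RatAff φ) (h2 : RatAff ψ) :
    RatAff fun x => φ x + ψ x := by
  obtain ⟨a, c, ha, ⟨q, hq⟩, h1⟩ := h1
  obtain ⟨b, d, hb, ⟨r, hr⟩, h2⟩ := h2
  refine ⟨a + b, c + d, ha.add hb, ⟨q + r, by simp [hq, hr]⟩, fun x => ?_⟩
  simp only [h1, h2, add_dotProduct]
  ring

theorem RatAff.mul {φ : (ι → ℝ) → ℝ} (h1 : RatAff φ) {r : ℝ} (hr : ∃ q : ℚ, r = q) :
    RatAff fun x => r * φ x := by
  obtain ⟨a, c, ha, ⟨q, hq⟩, h1⟩ := h1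
  obtain ⟨r, rfl⟩ := hr
  refine ⟨(r : ℝ) • a, r * c, ha.smul r, ⟨r * q, by simp [hq]⟩, fun x => ?_⟩
  simp only [h1, smul_dotProduct, smul_eq_mul]
  ring

theorem RatAff.neg {φ : (ι → ℝ) → ℝ} (h1 : RatAff φ) : RatAff fun x => -φ x := by
  simpa using h1.mul (r := -1) ⟨-1, by simp⟩

theorem RatAff.sub {φ ψ : (ι → ℝ) → ℝ} (h1 : RatAff φ) (h2 : RatAff ψ) :
    RatAff fun x => φ x - ψ x := by
  simpa [sub_eq_add_neg] using h1.add h2.neg

theorem ratAff_sum {σ : Type*} (s : Finset σ) {φ : σ → (ι → ℝ) → ℝ} (h : ∀ j ∈ s, RatAff (φ j)) :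
    RatAff fun x => ∑ j ∈ s, φ j x := by
  classical
  induction s using Finset.induction_on with
  | empty => simpa using ratAff_const (ι := ι) 0
  | insert j s hj ih =>
    simp only [Finset.sum_insert hj]
    exact (h j (mem_insert_self _ _)).add (ih fun l hl => h l (mem_insert_of_mem hl))

theorem RatAff.rat {φ : (ι → ℝ) → ℝ} (h : RatAff φ) {x : ι → ℝ} (hx : IsRat x) :
    ∃ q : ℚ, φ x = q := by
  obtain ⟨a, c, ha, ⟨q, hq⟩, h⟩ := h
  obtain ⟨r, hr⟩ := ha.dot hx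
  exact ⟨r + q, by simp [h, hr, hq]⟩

theorem RatAff.comb {φ : (ι → ℝ) → ℝ} (h : RatAff φ) (x y : ι → ℝ) {s t : ℝ} (hst : s + t = 1) :
    φ (s • x + t • y) = s * φ x + t * φ y := by
  obtain ⟨a, c, -, -, h⟩ := h
  simp only [h, dotProduct_add, dotProduct_smul, smul_eq_mul]
  linear_combination (-c) * hst

theorem RatAff.sum_comb {φ : (ι → ℝ) → ℝ} (h : RatAff φ) {σ : Type*} (s : Finset σ) {w : σ → ℝ}
    (hw : ∑ j ∈ s, w j = 1) (x : σ → ι → ℝ) :
    φ (∑ j ∈ s, w j • x j) = ∑ j ∈ s, w j * φ (x j) := by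
  obtain ⟨a, c, -, -, h⟩ := h
  simp only [h, dotProduct_sum, dotProduct_smul, smul_eq_mul, mul_add, Finset.sum_add_distrib,
    ← Finset.sum_mul, hw, one_mul]

theorem RatAff.continuous {φ : (ι → ℝ) → ℝ} (h : RatAff φ) : Continuous φ := by
  obtain ⟨a, c, -, -, h⟩ := h
  have : φ = fun x => ∑ i, a i * x i + c := funext h
  rw [this]
  fun_prop

theorem RatAff.comp [Fintype κ] {φ : (κ → ℝ) → ℝ} (h : RatAff φ) {f : (ι → ℝ) → κ → ℝ}
    (hf : RatAffV f) : RatAff fun x => φ (f x) := by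
  obtain ⟨a, c, ha, hc, h⟩ := h
  simp only [h]
  exact (ratAff_sum univ fun j _ => (hf j).mul (ha j)).add (ratAff_const' hc)

theorem RatAffV.comp [Fintype κ] {σ : Type*} {g : (κ → ℝ) → σ → ℝ} (h : RatAffV g)
    {f : (ι → ℝ) → κ → ℝ} (hf : RatAffV f) : RatAffV fun x => g (f x) :=
  fun j => (h j).comp hf

theorem RatAffV.isRat {f : (ι → ℝ) → κ → ℝ} (hf : RatAffV f) {x : ι → ℝ} (hx : IsRat x) :
    IsRat (f x) := fun j => (hf j).rat hx

theorem RatAffV.comb {f : (ι → ℝ) → κ → ℝ} (hf : RatAffV f) (x y : ι → ℝ) {s t : ℝ}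
    (hst : s + t = 1) : f (s • x + t • y) = s • f x + t • f y :=
  funext fun j => (hf j).comb x y hst

theorem ratAff_linear [DecidableEq ι] (φ : (ι → ℝ) →ₗ[ℝ] ℝ)
    (h : ∀ i, ∃ q : ℚ, φ (Pi.single i 1) = q) : RatAff φ := by
  refine ⟨fun i => φ (Pi.single i 1), 0, h, ⟨0, by simp⟩, fun x => ?_⟩
  conv_lhs => rw [← Finset.univ_sum_single x]
  rw [map_sum, add_zero, dotProduct]
  refine Finset.sum_congr rfl fun i _ => ?_
  rw [mul_comm, ← smul_eq_mul, ← map_smul, ← Pi.single_smul, smul_eq_mul, mul_one]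

theorem ratPolyhedron_univ : RatPolyhedron (Set.univ : Set (ι → ℝ)) :=
  ⟨∅, finite_empty, by simp, by simp⟩

theorem RatPolyhedron.inter {P Q : Set (ι → ℝ)} (hP : RatPolyhedron P) (hQ : RatPolyhedron Q) :
    RatPolyhedron (P ∩ Q) := by
  obtain ⟨H, hH, hr, rfl⟩ := hP
  obtain ⟨K, hK, hs, rfl⟩ := hQ
  refine ⟨H ∪ K, hH.union hK, fun h hh => hh.elim (hr h) (hs h), ?_⟩
  ext x
  exact ⟨fun hx h hh => hh.elim (hx.1 h) (hx.2 h),
    fun hx => ⟨fun h hh => hx h (Or.inl hh), fun h hh => hx h (Or.inr hh)⟩⟩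

theorem ratPolyhedron_iInter {σ : Type*} [Finite σ] {P : σ → Set (ι → ℝ)}
    (hP : ∀ j, RatPolyhedron (P j)) : RatPolyhedron {x | ∀ j, x ∈ P j} := by
  choose H hH hr he using hP
  refine ⟨⋃ j, H j, Set.finite_iUnion hH, fun h hh => ?_, ?_⟩
  · obtain ⟨j, hj⟩ := Set.mem_iUnion.1 hh
    exact hr j h hj
  · ext x
    simp only [Set.mem_ofPred_eq, he, Set.mem_iUnion]
    exact ⟨fun hx h ⟨j, hj⟩ => hx j h hj, fun hx j h hj => hx h ⟨j, hj⟩⟩

theorem ratPolyhedron_biInter {σ : Type*} {s : Set σ} (hs : s.Finite) {P : σ → Set (ι → ℝ)}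
    (hP : ∀ j ∈ s, RatPolyhedron (P j)) : RatPolyhedron {x | ∀ j ∈ s, x ∈ P j} := by
  have := hs.to_subtype
  have h1 := ratPolyhedron_iInter (P := fun j : s => P j) fun j => hP j j.2
  simpa using h1

theorem RatAff.le {φ ψ : (ι → ℝ) → ℝ} (h1 : RatAff φ) (h2 : RatAff ψ) :
    RatPolyhedron {x | φ x ≤ ψ x} := by
  obtain ⟨a, c, ha, ⟨q, hq⟩, h⟩ := h1.sub h2
  refine ⟨{(a, -c)}, finite_singleton _, ?_, ?_⟩
  · rintro _ rfl
    exact ⟨ha, -q, by simp [hq]⟩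
  · ext x
    simp only [Set.mem_ofPred_eq, Set.mem_singleton_iff, forall_eq]
    have := h x
    constructor <;> intro h' <;> linarith

theorem RatAff.eq {φ ψ : (ι → ℝ) → ℝ} (h1 : RatAff φ) (h2 : RatAff ψ) :
    RatPolyhedron {x | φ x = ψ x} := by
  have := (h1.le h2).inter (h2.le h1)
  refine (congrArg RatPolyhedron ?_).mp this
  ext x
  exact (le_antisymm_iff (a := φ x) (b := ψ x)).symm

theorem RatPolyhedron.preimage [Fintype κ] {Q : Set (κ → ℝ)} (hQ : RatPolyhedron Q)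
    {f : (ι → ℝ) → κ → ℝ} (hf : RatAffV f) : RatPolyhedron (f ⁻¹' Q) := by
  obtain ⟨H, hH, hr, rfl⟩ := hQ
  exact ratPolyhedron_biInter hH (P := fun h => {x | h.1 ⬝ᵥ f x ≤ h.2}) fun h hh =>
    ((ratAff_dot (hr h hh).1).comp hf).le (ratAff_const' (hr h hh).2)

theorem ratPolyhedron_Icc {a b : ι → ℝ} (ha : IsRat a) (hb : IsRat b) :
    RatPolyhedron (Set.Icc a b) :=
  (ratPolyhedron_iInter (P := fun i => {x | a i ≤ x i}) fun i =>
    (ratAff_const' (ha i)).le (ratAff_coord i)).inter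
  (ratPolyhedron_iInter (P := fun i => {x | x i ≤ b i}) fun i =>
    (ratAff_coord i).le (ratAff_const' (hb i)))

theorem convex_dot_le (a : ι → ℝ) (c : ℝ) : Convex ℝ {x : ι → ℝ | a ⬝ᵥ x ≤ c} := by
  intro x hx y hy s t hs ht hst
  simp only [Set.mem_ofPred_eq, dotProduct_add, dotProduct_smul, smul_eq_mul] at hx hy ⊢
  calc s * a ⬝ᵥ x + t * a ⬝ᵥ y ≤ s * c + t * c := by gcongr
    _ = c := by rw [← add_mul, hst, one_mul]

theorem RatPolyhedron.convex {P : Set (ι → ℝ)} (hP : RatPolyhedron P) : Convex ℝ P := by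
  obtain ⟨H, -, -, rfl⟩ := hP
  intro x hx y hy s t hs ht hst h hh
  exact convex_dot_le h.1 h.2 (hx h hh) (hy h hh) hs ht hst

theorem RatPolyhedron.isClosed {P : Set (ι → ℝ)} (hP : RatPolyhedron P) : IsClosed P := by
  obtain ⟨H, -, hr, rfl⟩ := hP
  simp only [Set.ofPred_forall]
  exact isClosed_iInter fun h => isClosed_iInter fun hh =>
    isClosed_le (ratAff_dot (hr h hh).1).continuous continuous_const

/-- moving a little in a direction allowed by the active inequalities -/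
theorem exists_push {H : Set ((ι → ℝ) × ℝ)} (hH : H.Finite) {x d : ι → ℝ}
    (hx : ∀ h ∈ H, h.1 ⬝ᵥ x ≤ h.2) (hd : ∀ h ∈ H, h.1 ⬝ᵥ x = h.2 → h.1 ⬝ᵥ d ≤ 0) :
    ∃ t : ℝ, 0 < t ∧ ∀ h ∈ H, h.1 ⬝ᵥ (x + t • d) ≤ h.2 := by
  have key : ∀ h ∈ H, ∀ᶠ t : ℝ in 𝓝[>] 0, h.1 ⬝ᵥ (x + t • d) ≤ h.2 := by
    intro h hh
    simp only [dotProduct_add, dotProduct_smul, smul_eq_mul]
    rcases (hx h hh).eq_or_lt with h1 | h1
    · filter_upwards [self_mem_nhdsWithin] with t ht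
      have := mul_nonpos_of_nonneg_of_nonpos (le_of_lt ht) (hd h hh h1)
      linarith
    · have hc : Tendsto (fun t : ℝ => h.1 ⬝ᵥ x + t * h.1 ⬝ᵥ d) (𝓝 0) (𝓝 (h.1 ⬝ᵥ x)) :=
        Continuous.tendsto' (by fun_prop) _ _ (by simp)
      exact ((hc.eventually (gt_mem_nhds h1)).mono fun t ht => ht.le).filter_mono nhdsWithin_le_nhds
  obtain ⟨t, ht, h0⟩ := (((Filter.eventually_all_finite hH).2 key).and self_mem_nhdsWithin).exists
  exact ⟨t, h0, ht⟩

theorem mem_openSegment_push {E : Type*} [AddCommGroup E] [Module ℝ E] (x y : E) {t : ℝ}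
    (ht : 0 < t) : x ∈ openSegment ℝ y (x + t • (x - y)) := by
  have h1 : (1 + t) ≠ 0 := by positivity
  refine ⟨t / (1 + t), 1 / (1 + t), by positivity, by positivity, by field_simp; ring, ?_⟩
  have h2 : (1 / (1 + t)) • (x + t • (x - y)) = x - (t / (1 + t)) • y := by
    rw [smul_sub, add_sub, smul_sub, smul_smul, one_div_mul_eq_div]
    congr 1
    nth_rw 1 [← one_smul ℝ x]
    rw [← add_smul, smul_smul, one_div_mul_cancel h1, one_smul]
  rw [h2]
  abel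

theorem ext_mem_of_hull {E : Type*} [AddCommGroup E] [Module ℝ E] {P S : Set E} (hP : Convex ℝ P)
    (hS : S ⊆ P) {x : E} (hx : x ∈ P.extremePoints ℝ) (h : x ∈ convexHull ℝ S) : x ∈ S :=
  extremePoints_convexHull_subset
    (inter_extremePoints_subset_extremePoints_of_subset (convexHull_min hS hP) ⟨h, hx⟩)

theorem eq_hull_ext {P : Set (ι → ℝ)} (hc : IsCompact P) (hP : Convex ℝ P)
    (hf : (P.extremePoints ℝ).Finite) : P = convexHull ℝ (P.extremePoints ℝ) := by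
  rw [← (hf.isClosed_convexHull ℝ).closure_eq, closure_convexHull_extremePoints hc hP]

theorem ratPolytope_of_ext {P : Set (ι → ℝ)} (hc : IsCompact P) (hP : Convex ℝ P)
    (hf : (P.extremePoints ℝ).Finite) (hr : ∀ x ∈ P.extremePoints ℝ, IsRat x) : RatPolytope P :=
  ⟨_, hf, hr, eq_hull_ext hc hP hf⟩

theorem RatPolyhedron.ext_finite {P : Set (ι → ℝ)} (hP : RatPolyhedron P) :
    (P.extremePoints ℝ).Finite := by
  obtain ⟨H, hH, -, rfl⟩ := hP
  refine Set.Finite.of_finite_image (f := fun x => {h ∈ H | h.1 ⬝ᵥ x = h.2})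
    (hH.finite_subsets.subset ?_) ?_
  · rintro _ ⟨x, -, rfl⟩
    exact sep_subset _ _
  · intro x hx y hy hxy
    obtain ⟨t, ht, hp⟩ := exists_push hH (x := x) (d := x - y) hx.1 fun h hh h1 => by
      have h2 : h ∈ {h ∈ H | h.1 ⬝ᵥ y = h.2} := by
        have h3 : h ∈ {h ∈ H | h.1 ⬝ᵥ x = h.2} := ⟨hh, h1⟩
        exact (Set.ext_iff.1 hxy h).1 h3
      rw [dotProduct_sub, h1, h2.2, sub_self]
    exact (hx.2 hy.1 hp (mem_openSegment_push x y ht)).symm

theorem RatPolyhedron.ext_isRat {P : Set (ι → ℝ)} (hP : RatPolyhedron P) {x : ι → ℝ}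
    (hx : x ∈ P.extremePoints ℝ) : IsRat x :=
  Appr.isRat (ext_mem_of_hull hP.convex inter_subset_left hx (hP.dio hx.1 one_pos one_pos)).2

/-- a bounded rational polyhedron is a rational polytope -/
theorem RatPolyhedron.ratPolytope {P : Set (ι → ℝ)} (hP : RatPolyhedron P)
    (hb : Bornology.IsBounded P) : RatPolytope P :=
  ratPolytope_of_ext (Metric.isCompact_of_isClosed_isBounded hP.isClosed hb) hP.convex
    hP.ext_finite fun _ hx => hP.ext_isRat hx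

omit [Fintype ι] in
theorem RatPolytope.convex {P : Set (ι → ℝ)} (hP : RatPolytope P) : Convex ℝ P := by
  obtain ⟨T, -, -, rfl⟩ := hP
  exact convex_convexHull ℝ T

omit [Fintype ι] in
theorem RatPolytope.isCompact {P : Set (ι → ℝ)} (hP : RatPolytope P) : IsCompact P := by
  obtain ⟨T, hT, -, rfl⟩ := hP
  exact hT.isCompact_convexHull ℝ

theorem exists_sep {P : Set (ι → ℝ)} (hP : Convex ℝ P) (hc : IsClosed P) {x : ι → ℝ}
    (hx : x ∉ P) : ∃ (a : ι → ℝ) (c : ℝ), (∀ y ∈ P, a ⬝ᵥ y < c) ∧ c < a ⬝ᵥ x := by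
  classical
  obtain ⟨f, c, h1, h2⟩ := geometric_hahn_banach_closed_point hP hc hx
  have key : ∀ y, f y = (fun i => f (Pi.single i 1)) ⬝ᵥ y := fun y => by
    conv_lhs => rw [← Finset.univ_sum_single y]
    rw [map_sum, dotProduct]
    refine Finset.sum_congr rfl fun i _ => ?_
    rw [mul_comm, ← smul_eq_mul, ← map_smul, ← Pi.single_smul, smul_eq_mul, mul_one]
  exact ⟨_, c, fun y hy => key y ▸ h1 y hy, key x ▸ h2⟩

/-- a rational polytope is a rational polyhedron -/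
theorem RatPolytope.ratPolyhedron {P : Set (ι → ℝ)} (hP : RatPolytope P) : RatPolyhedron P := by
  have hcl := hP.isCompact.isClosed
  obtain ⟨T, hT, hr, rfl⟩ := hP
  have hA : ∀ v : ι → ℝ, Convex ℝ {u : Option ι → ℝ | (fun i => u (some i)) ⬝ᵥ v ≤ u none} := by
    intro v u hu w hw s t hs ht _
    have e : (fun i => (s • u + t • w) (some i)) =
        s • (fun i => u (some i)) + t • fun i => w (some i) := rfl
    simp only [Set.mem_ofPred_eq] at hu hw ⊢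
    rw [e, add_dotProduct, smul_dotProduct, smul_dotProduct]
    simp only [Pi.add_apply, Pi.smul_apply, smul_eq_mul]
    gcongr
  have hQ : RatPolyhedron ({u : Option ι → ℝ | ∀ v ∈ T, (fun i => u (some i)) ⬝ᵥ v ≤ u none} ∩
      Set.Icc (-1) 1) := by
    refine RatPolyhedron.inter (ratPolyhedron_biInter hT
      (P := fun v => {u : Option ι → ℝ | (fun i => u (some i)) ⬝ᵥ v ≤ u none}) fun v hv => ?_)
      (ratPolyhedron_Icc (fun _ => ⟨-1, by simp⟩) fun _ => ⟨1, by simp⟩)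
    refine RatAff.le ?_ (ratAff_coord none)
    simp only [dotProduct, mul_comm _ (v _)]
    exact ratAff_sum univ fun i _ => (ratAff_coord (some i)).mul (hr v hv i)
  obtain ⟨S, hS, hs, hQS⟩ := hQ.ratPolytope
    ((isCompact_Icc (a := (-1 : Option ι → ℝ)) (b := 1)).isBounded.subset inter_subset_right)
  refine ⟨(fun u => (fun i => u (some i), u none)) '' S, hS.image _, ?_, Subset.antisymm ?_ ?_⟩
  · rintro _ ⟨u, hu, rfl⟩
    exact ⟨fun i => hs u hu _, hs u hu _⟩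
  · rintro x hx _ ⟨u, hu, rfl⟩
    have h1 := subset_convexHull ℝ S hu
    rw [← hQS] at h1
    exact convexHull_min (fun v hv => h1.1 v hv) (convex_dot_le _ _) hx
  · intro x hx
    by_contra hn
    obtain ⟨a, c, h1, h2⟩ := exists_sep (convex_convexHull ℝ T) hcl hn
    let u0 : Option ι → ℝ := fun j => j.elim c a
    have hp : 0 < (‖u0‖ + 1)⁻¹ := by positivity
    have hn1 : ‖(‖u0‖ + 1)⁻¹ • u0‖ ≤ 1 := by
      rw [norm_smul, Real.norm_of_nonneg hp.le, ← div_eq_inv_mul, div_le_one (by positivity)]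
      linarith
    have e : ∀ v, (fun i => ((‖u0‖ + 1)⁻¹ • u0) (some i)) ⬝ᵥ v = (‖u0‖ + 1)⁻¹ * a ⬝ᵥ v :=
      fun v => smul_dotProduct _ a v
    have hu : (‖u0‖ + 1)⁻¹ • u0 ∈ convexHull ℝ S := by
      rw [← hQS]
      refine ⟨fun v hv => ?_, fun j => ?_, fun j => ?_⟩
      · rw [e]
        exact mul_le_mul_of_nonneg_left (h1 v (subset_convexHull ℝ T hv)).le hp.le
      · exact (abs_le.1 ((norm_le_pi_norm _ j).trans hn1)).1
      · exact (abs_le.1 ((norm_le_pi_norm _ j).trans hn1)).2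
    have h3 : (fun i => ((‖u0‖ + 1)⁻¹ • u0) (some i)) ⬝ᵥ x ≤ ((‖u0‖ + 1)⁻¹ • u0) none :=
      convexHull_min (fun u hu => hx _ ⟨u, hu, rfl⟩) (hA x) hu
    rw [e] at h3
    exact absurd (mul_lt_mul_of_pos_left h2 hp) (not_lt.2 h3)

theorem ratPolytope_iff {P : Set (ι → ℝ)} :
    RatPolytope P ↔ RatPolyhedron P ∧ Bornology.IsBounded P :=
  ⟨fun h => ⟨h.ratPolyhedron, h.isCompact.isBounded⟩, fun h => h.1.ratPolytope h.2⟩

theorem RatPolytope.inter {P Q : Set (ι → ℝ)} (hP : RatPolytope P) (hQ : RatPolyhedron Q) :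
    RatPolytope (P ∩ Q) :=
  (hP.ratPolyhedron.inter hQ).ratPolytope (hP.isCompact.isBounded.subset inter_subset_left)

theorem RatPolytope.image {P : Set (ι → ℝ)} (hP : RatPolytope P) {f : (ι → ℝ) → κ → ℝ}
    (hf : RatAffV f) : RatPolytope (f '' P) := by
  obtain ⟨T, hT, hr, rfl⟩ := hP
  refine ⟨f '' T, hT.image f, ?_, Subset.antisymm ?_ (convexHull_min
    (image_mono (subset_convexHull ℝ T)) ?_)⟩
  · rintro _ ⟨x, hx, rfl⟩
    exact hf.isRat (hr x hx)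
  · rw [image_subset_iff]
    refine convexHull_min (fun x hx => subset_convexHull ℝ _ (mem_image_of_mem f hx)) ?_
    intro x hx y hy s t hs ht hst
    rw [Set.mem_preimage, hf.comb x y hst]
    exact convex_convexHull ℝ _ hx hy hs ht hst
  · rintro _ ⟨x, hx, rfl⟩ _ ⟨y, hy, rfl⟩ s t hs ht hst
    exact ⟨_, convex_convexHull ℝ T hx hy hs ht hst, hf.comb x y hst⟩

omit [Fintype ι] in
theorem ratPolytope_hull_iUnion {σ : Type*} [Finite σ] {P : σ → Set (ι → ℝ)}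
    (hP : ∀ j, RatPolytope (P j)) : RatPolytope (convexHull ℝ (⋃ j, P j)) := by
  choose T hT hr he using hP
  refine ⟨⋃ j, T j, Set.finite_iUnion hT, fun x hx => ?_, Subset.antisymm ?_ ?_⟩
  · obtain ⟨j, hj⟩ := Set.mem_iUnion.1 hx
    exact hr j x hj
  · refine convexHull_min (iUnion_subset fun j => ?_) (convex_convexHull ℝ _)
    rw [he j]
    exact convexHull_mono (subset_iUnion T j)
  · refine convexHull_mono (iUnion_mono fun j => ?_)
    rw [he j]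
    exact subset_convexHull ℝ _

theorem ratPolytope_Icc {a b : ι → ℝ} (ha : IsRat a) (hb : IsRat b) : RatPolytope (Set.Icc a b) :=
  (ratPolyhedron_Icc ha hb).ratPolytope isCompact_Icc.isBounded

omit [Fintype ι] in
theorem RatPolytope.ext_finite {P : Set (ι → ℝ)} (hP : RatPolytope P) :
    (P.extremePoints ℝ).Finite := by
  obtain ⟨T, hT, -, rfl⟩ := hP
  exact hT.subset extremePoints_convexHull_subset

/-- approximation inside a rational polytope -/
theorem RatPolytope.dio {P : Set (ι → ℝ)} (hP : RatPolytope P) {x : ι → ℝ} (hx : x ∈ P)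
    {k : ℕ} (hk : 0 < k) {ε : ℝ} (hε : 0 < ε) : x ∈ convexHull ℝ (P ∩ Appr x k ε) :=
  hP.ratPolyhedron.dio hx hk hε

/-- approximation inside a rational polyhedron, spelled out -/
theorem RatPolyhedron.dio' {P : Set (ι → ℝ)} (hP : RatPolyhedron P) {x : ι → ℝ} (hx : x ∈ P)
    {k : ℕ} (hk : 0 < k) {ε : ℝ} (hε : 0 < ε) :
    ∃ (n : ℕ) (r : Fin n → ℝ) (y : Fin n → ι → ℝ) (m : Fin n → ℕ), (∀ j, 0 < r j) ∧
      ∑ j, r j = 1 ∧ ∑ j, r j • y j = x ∧ ∀ j, y j ∈ P ∧ 0 < m j ∧ IsInt ((m j : ℝ) • y j) ∧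
        ‖x - y j‖ < ε / ((k * m j : ℕ) : ℝ) := by
  obtain ⟨n, r, y, hr, h1, hy, hs⟩ := hull_fin (hP.dio hx hk hε)
  choose m hm hi hd using fun j => (hy j).2
  exact ⟨n, r, y, m, hr, h1, hs, fun j => ⟨(hy j).1, hm j, hi j, hd j⟩⟩

end P277Z.Cvx
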