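import Vale.Agent.P277Z.Cvx.MW

/-! Rational linear programming duality and piecewise linear extension. -/

namespace P277Z.Cvx

open Set Finset

variable {ι σ : Type*} [Fintype ι] [Fintype σ]

/-- finitely many rational dual solutions certify every optimal combination -/
theorem lp_dual {x : σ → ι → ℝ} {f : σ → ℝ} (hx : ∀ j, IsRat (x j)) (hf : IsRat f) :
    ∃ L : Set (ι → ℝ), L.Finite ∧ (∀ φ ∈ L, IsRat φ ∧ ∀ j, φ ⬝ᵥ x j ≤ f j) ∧
      ∀ r : σ → ℝ, (∀ j, 0 ≤ r j) →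
        (∀ s : σ → ℝ, (∀ j, 0 ≤ s j) → ∑ j, s j • x j = ∑ j, r j • x j →
          ∑ j, r j * f j ≤ ∑ j, s j * f j) →
        ∃ φ ∈ L, φ ⬝ᵥ (∑ j, r j • x j) = ∑ j, r j * f j := by
  classical
  let v : σ → Option ι → ℝ := fun j i => i.elim (f j) (x j)
  let e : Option ι → ℝ := fun i => i.elim 1 0
  have hd : ∀ a u : Option ι → ℝ,
      a ⬝ᵥ u = a none * u none + (fun i => a (some i)) ⬝ᵥ fun i => u (some i) :=
    fun a u => Fintype.sum_option _
  have hP : RatPolytope (convexHull ℝ (insert 0 (insert e (range v)))) := by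
    refine ⟨_, ((finite_range v).insert e).insert 0, ?_, rfl⟩
    rintro u (rfl | rfl | ⟨j, rfl⟩)
    · exact isRat_zero
    · intro i
      cases i with
      | none => exact ⟨1, by simp [e]⟩
      | some i => exact ⟨0, by simp [e]⟩
    · intro i
      cases i with
      | none => exact hf j
      | some i => exact hx j i
  obtain ⟨H, hH, hr, hPH⟩ := hP.ratPolyhedron
  have hin : ∀ u ∈ insert 0 (insert e (range v)), ∀ h ∈ H, h.1 ⬝ᵥ u ≤ h.2 := fun u hu => by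
    have h1 := subset_convexHull ℝ _ hu
    rwa [hPH] at h1
  have hv : ∀ j, ∀ h ∈ H, h.1 ⬝ᵥ v j ≤ h.2 := fun j => hin _ (Or.inr (Or.inr ⟨j, rfl⟩))
  have he : ∀ h ∈ H, h.1 none ≤ h.2 := fun h hh => by
    have h1 := hin e (Or.inr (Or.inl rfl)) h hh
    rw [hd] at h1
    have h2 : (fun i => e (some i)) = 0 := rfl
    rw [h2, dotProduct_zero, add_zero] at h1
    simpa [e] using h1
  refine ⟨(fun h => (-h.1 none)⁻¹ • fun i => h.1 (some i)) '' {h ∈ H | h.2 = 0 ∧ h.1 none < 0},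
    (hH.subset (sep_subset _ _)).image _, ?_, fun r hr0 hopt => ?_⟩
  · rintro _ ⟨h, ⟨hh, h0, hb⟩, rfl⟩
    obtain ⟨q, hq⟩ := (hr h hh).1 none
    refine ⟨?_, fun j => ?_⟩
    · have h1 : IsRat fun i => h.1 (some i) := fun i => (hr h hh).1 (some i)
      have h2 := h1.smul (-q)⁻¹
      rw [Rat.cast_inv, Rat.cast_neg, ← hq] at h2
      exact h2
    · have h1 := hv j h hh
      rw [hd, h0] at h1
      rw [smul_dotProduct, smul_eq_mul, inv_mul_le_iff₀ (neg_pos.2 hb)]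
      have h2 : v j none = f j := rfl
      have h3 : (fun i => v j (some i)) = x j := rfl
      rw [h2, h3] at h1
      linarith
  · by_contra hn
    let p : Option ι → ℝ := ∑ j, r j • v j
    have hp0 : p none = ∑ j, r j * f j := by simp [p, v, Finset.sum_apply]
    have hp1 : (fun i => p (some i)) = ∑ j, r j • x j := by
      funext i
      simp [p, v, Finset.sum_apply]
    obtain ⟨η, hη, hpush⟩ := exists_push (H := {h ∈ H | h.2 = 0}) (hH.subset (sep_subset _ _))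
      (x := p) (d := -e) (fun h hh => by
        rw [hh.2, dotProduct_sum]
        refine Finset.sum_nonpos fun j _ => ?_
        rw [dotProduct_smul, smul_eq_mul]
        exact mul_nonpos_of_nonneg_of_nonpos (hr0 j) (hh.2 ▸ hv j h hh.1))
      (fun h hh h1 => by
        have h2 : h.1 none = 0 := by
          refine (hh.2 ▸ he h hh.1 : h.1 none ≤ 0).eq_of_not_lt fun hb => hn ?_
          refine ⟨_, ⟨h, ⟨hh.1, hh.2, hb⟩, rfl⟩, ?_⟩
          rw [hd, hp0, hp1, hh.2] at h1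
          rw [smul_dotProduct, smul_eq_mul, inv_mul_eq_iff_eq_mul₀ (neg_pos.2 hb).ne']
          linarith
        have h3 : (fun i => e (some i)) = 0 := rfl
        rw [dotProduct_neg, hd, h2, h3]
        simp)
    obtain ⟨t, ht, hq⟩ := exists_push hH (x := 0) (d := p + η • -e) (hin 0 (Or.inl rfl))
      fun h hh h1 => by
        have h0 : h.2 = 0 := by simpa using h1.symm
        exact h0 ▸ hpush h ⟨hh, h0⟩
    have hK : Convex ℝ {u : Option ι → ℝ | ∃ s : σ → ℝ, (∀ j, 0 ≤ s j) ∧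
        ∑ j, s j • x j = (fun i => u (some i)) ∧ ∑ j, s j * f j ≤ u none} := by
      rintro u ⟨s, hs, h1, h2⟩ w ⟨s', hs', h1', h2'⟩ a b ha hb -
      refine ⟨fun j => a * s j + b * s' j,
        fun j => add_nonneg (mul_nonneg ha (hs j)) (mul_nonneg hb (hs' j)), ?_, ?_⟩
      · simp only [add_smul, mul_smul, Finset.sum_add_distrib, ← Finset.smul_sum, h1, h1']
        rfl
      · simp only [add_mul, mul_assoc, Finset.sum_add_distrib, ← Finset.mul_sum, Pi.add_apply,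
          Pi.smul_apply, smul_eq_mul]
        gcongr
    have hmem : 0 + t • (p + η • -e) ∈ convexHull ℝ (insert 0 (insert e (range v))) := by
      rw [hPH]
      exact hq
    obtain ⟨s, hs, h1, h2⟩ := convexHull_min (by
      rintro u (rfl | rfl | ⟨j, rfl⟩)
      · exact ⟨0, fun _ => le_rfl, by simp; rfl, by simp⟩
      · exact ⟨0, fun _ => le_rfl, by simp; rfl, by simp [e]⟩
      · refine ⟨Pi.single j 1, fun l => ?_, ?_, ?_⟩
        · by_cases h : l = j <;> simp [h]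
        · simp [Pi.single_apply]
          rfl
        · simp [Pi.single_apply, v]) hK hmem
    have h3 := hopt (fun j => t⁻¹ * s j) (fun j => mul_nonneg (inv_nonneg.2 ht.le) (hs j)) (by
      simp only [mul_smul, ← Finset.smul_sum]
      rw [h1, ← hp1]
      funext i
      simp [e, ht.ne'])
    simp only [mul_assoc, ← Finset.mul_sum] at h3
    rw [le_inv_mul_iff₀ ht] at h3
    have h4 : (0 + t • (p + η • -e)) none = t * (∑ j, r j * f j) - t * η := by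
      simp [e, hp0, sub_eq_add_neg]
    rw [h4] at h2
    linarith [mul_pos ht hη]

/-- an inequality over rational combinations extends to real combinations -/
theorem le_of_rat {x : σ → ι → ℝ} {f : σ → ℝ} (hx : ∀ j, IsRat (x j)) {y : ι → ℝ} (hy : IsRat y)
    {c : ℝ} (h : ∀ s : σ → ℝ, IsRat s → (∀ j, 0 ≤ s j) → ∑ j, s j • x j = y →
      c ≤ ∑ j, s j * f j) (s : σ → ℝ) (hs : ∀ j, 0 ≤ s j) (hsy : ∑ j, s j • x j = y) :
    c ≤ ∑ j, s j * f j := by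
  have hQ : RatPolyhedron ({s : σ → ℝ | ∀ j, 0 ≤ s j} ∩ {s | ∀ i, ∑ j, x j i * s j = y i}) :=
    (ratPolyhedron_iInter (P := fun j => {s : σ → ℝ | 0 ≤ s j}) fun j =>
      (ratAff_const' ⟨0, by simp⟩).le (ratAff_coord j)).inter
    (ratPolyhedron_iInter (P := fun i => {s : σ → ℝ | ∑ j, x j i * s j = y i}) fun i =>
      (ratAff_sum univ fun j _ => (ratAff_coord j).mul (hx j i)).eq (ratAff_const' (hy i)))
  have e : ∀ s : σ → ℝ, ∑ j, s j • x j = y ↔ ∀ i, ∑ j, x j i * s j = y i := fun s => by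
    simp only [funext_iff, Finset.sum_apply, Pi.smul_apply, smul_eq_mul, mul_comm]
  have e2 : ∀ s : σ → ℝ, (-f) ⬝ᵥ s ≤ -c ↔ c ≤ ∑ j, s j * f j := fun s => by
    rw [neg_dotProduct, neg_le_neg_iff, dotProduct_comm]
    rfl
  exact (e2 s).1 (convexHull_min (t := {s : σ → ℝ | (-f) ⬝ᵥ s ≤ -c})
    (fun s hs => (e2 s).2 (h s (Appr.isRat hs.2) hs.1.1 ((e s).2 hs.1.2)))
    (convex_dot_le _ _) (hQ.dio ⟨hs, (e s).1 hsy⟩ one_pos one_pos))

/-- a function generated by finitely many rational values is a maximum of finitely many rational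
linear functions -/
theorem pa_max {x : σ → ι → ℝ} {f : σ → ℝ} (hx : ∀ j, IsRat (x j)) (hf : IsRat f) :
    ∃ L : Set (ι → ℝ), L.Finite ∧ (∀ φ ∈ L, IsRat φ ∧ ∀ j, φ ⬝ᵥ x j ≤ f j) ∧
      ∀ (y : ι → ℝ) (c : ℝ), IsRat y →
        (∃ r : σ → ℝ, (∀ j, 0 ≤ r j) ∧ ∑ j, r j • x j = y ∧ ∑ j, r j * f j = c) →
        (∀ s : σ → ℝ, IsRat s → (∀ j, 0 ≤ s j) → ∑ j, s j • x j = y → c ≤ ∑ j, s j * f j) →
        IsGreatest ((· ⬝ᵥ y) '' L) c := by
  obtain ⟨L, hL, h1, h2⟩ := lp_dual hx hf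
  refine ⟨L, hL, h1, ?_⟩
  rintro _ _ hy ⟨r, hr, rfl, rfl⟩ hs
  obtain ⟨φ, hφ, he⟩ := h2 r hr (le_of_rat hx hy hs)
  refine ⟨⟨φ, hφ, he⟩, ?_⟩
  rintro _ ⟨ψ, hψ, rfl⟩
  simp only [dotProduct_sum, dotProduct_smul, smul_eq_mul]
  exact Finset.sum_le_sum fun j _ => mul_le_mul_of_nonneg_left ((h1 ψ hψ).2 j) (hr j)

/-- common subdivision: finitely many rational cones cover the space, and on each of them every
maximum is attained by one fixed linear function -/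
theorem cells {τ : Type*} [Finite τ] {L : τ → Set (ι → ℝ)} (hL : ∀ t, (L t).Finite)
    (hne : ∀ t, (L t).Nonempty) (hr : ∀ t, ∀ φ ∈ L t, IsRat φ) :
    ∃ (n : ℕ) (A : Fin n → Set (ι → ℝ)) (φ : Fin n → τ → ι → ℝ),
      (∀ l, (A l).Finite ∧ ∀ a ∈ A l, IsInt a) ∧ (∀ l t, φ l t ∈ L t) ∧
      (∀ y, ∃ l, ∀ a ∈ A l, 0 ≤ a ⬝ᵥ y) ∧
      ∀ l y, (∀ a ∈ A l, 0 ≤ a ⬝ᵥ y) → ∀ t, IsGreatest ((· ⬝ᵥ y) '' L t) (φ l t ⬝ᵥ y) := by
  have := fun t => (hL t).to_subtype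
  obtain ⟨n, ⟨e⟩⟩ := Finite.exists_equiv_fin (∀ t, L t)
  obtain ⟨q, hq, hi⟩ := exists_den_set (Set.finite_iUnion hL) fun φ hφ => by
    obtain ⟨t, ht⟩ := Set.mem_iUnion.1 hφ
    exact hr t φ ht
  have hq' : (0 : ℝ) < q := by exact_mod_cast hq
  refine ⟨n, fun l => ⋃ t, (fun ψ => (q : ℝ) • (e.symm l t).1 - (q : ℝ) • ψ) '' L t,
    fun l t => (e.symm l t).1, fun l => ⟨Set.finite_iUnion fun t => (hL t).image _, ?_⟩,
    fun l t => (e.symm l t).2, fun y => ?_, fun l y hy t => ⟨⟨_, (e.symm l t).2, rfl⟩, ?_⟩⟩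
  · intro a ha
    obtain ⟨t, ψ, hψ, rfl⟩ := Set.mem_iUnion.1 ha
    exact (hi _ (Set.mem_iUnion.2 ⟨t, (e.symm l t).2⟩)).sub (hi _ (Set.mem_iUnion.2 ⟨t, hψ⟩))
  · choose φ hφ hm using fun t => Set.exists_max_image (L t) (· ⬝ᵥ y) (hL t) (hne t)
    refine ⟨e fun t => ⟨φ t, hφ t⟩, fun a ha => ?_⟩
    obtain ⟨t, ψ, hψ, rfl⟩ := Set.mem_iUnion.1 ha
    simp only [Equiv.symm_apply_apply, sub_dotProduct, smul_dotProduct, smul_eq_mul, sub_nonneg]
    exact mul_le_mul_of_nonneg_left (hm t ψ hψ) hq'.le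
  · rintro _ ⟨ψ, hψ, rfl⟩
    have h1 := hy _ (Set.mem_iUnion.2 ⟨t, ψ, hψ, rfl⟩)
    simp only [sub_dotProduct, smul_dotProduct, smul_eq_mul, sub_nonneg] at h1
    exact le_of_mul_le_mul_left h1 hq'

/-- finitely many generated functions are simultaneously rationally piecewise linear -/
theorem pa {τ : Type*} [Finite τ] {x : σ → ι → ℝ} {f : τ → σ → ℝ} (hx : ∀ j, IsRat (x j))
    (hf : ∀ t, IsRat (f t)) {D : Set (ι → ℝ)} (hD : ∀ y ∈ D, IsRat y) {g : τ → (ι → ℝ) → ℝ}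
    (hgen : ∀ t, ∀ y ∈ D,
      ∃ r : σ → ℝ, (∀ j, 0 ≤ r j) ∧ ∑ j, r j • x j = y ∧ ∑ j, r j * f t j = g t y)
    (hsub : ∀ t, ∀ y ∈ D, ∀ s : σ → ℝ, IsRat s → (∀ j, 0 ≤ s j) → ∑ j, s j • x j = y →
      g t y ≤ ∑ j, s j * f t j) :
    ∃ (n : ℕ) (A : Fin n → Set (ι → ℝ)) (φ : Fin n → τ → ι → ℝ),
      (∀ l, (A l).Finite ∧ ∀ a ∈ A l, IsInt a) ∧ (∀ l t, IsRat (φ l t)) ∧
      (∀ y, ∃ l, ∀ a ∈ A l, 0 ≤ a ⬝ᵥ y) ∧
      ∀ l, ∀ y ∈ D, (∀ a ∈ A l, 0 ≤ a ⬝ᵥ y) → ∀ t, g t y = φ l t ⬝ᵥ y := by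
  rcases D.eq_empty_or_nonempty with rfl | ⟨y0, hy0⟩
  · exact ⟨1, fun _ => ∅, fun _ _ => 0, by simp, fun _ _ => isRat_zero, fun _ => ⟨0, by simp⟩,
      by simp⟩
  choose L hL h1 h2 using fun t => pa_max hx (hf t)
  have h3 := fun t y hy => h2 t y (g t y) (hD y hy) (hgen t y hy) (hsub t y hy)
  obtain ⟨n, A, φ, hA, hφ, hc, hm⟩ := cells hL
    (fun t => (Set.image_nonempty.1 ⟨_, (h3 t y0 hy0).1⟩)) fun t φ hφ => (h1 t φ hφ).1
  exact ⟨n, A, φ, hA, fun l t => (h1 t _ (hφ l t)).1, hc,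
    fun l y hy ha t => (h3 t y hy).unique (hm l y ha t)⟩

theorem ratPolyhedron_cell {A : Set (ι → ℝ)} (hA : A.Finite) (hi : ∀ a ∈ A, IsInt a) :
    RatPolyhedron {y | ∀ a ∈ A, 0 ≤ a ⬝ᵥ y} :=
  ratPolyhedron_biInter hA (P := fun a => {y | 0 ≤ a ⬝ᵥ y}) fun a ha =>
    (ratAff_const' ⟨0, by simp⟩).le (ratAff_dot (hi a ha).isRat)

end P277Z.Cvx
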