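import Vale.Agent.P277Z.Cvx.MW

/-! Criteria for a compact convex set to be a (rational) polytope. -/

namespace P277Z.Cvx

open Set Finset Filter Topology

variable {ι : Type*} [Fintype ι]

/-- an infinite subset of a compact set contains an injective convergent sequence avoiding its
limit -/
theorem exists_seq {P S : Set (ι → ℝ)} (hc : IsCompact P) (hS : S ⊆ P) (hi : S.Infinite) :
    ∃ (v : ℕ → ι → ℝ) (w : ι → ℝ), (∀ n, v n ∈ S) ∧ Function.Injective v ∧ w ∈ P ∧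
      Tendsto v atTop (𝓝 w) ∧ ∀ n, v n ≠ w := by
  let u : ℕ → ι → ℝ := fun n => (hi.natEmbedding S n).1
  have hu : Function.Injective u := Subtype.val_injective.comp (hi.natEmbedding S).injective
  obtain ⟨w, hw, φ, hφ, hl⟩ := hc.tendsto_subseq (x := u) fun n => hS (hi.natEmbedding S n).2
  have h1 : Function.Injective (u ∘ φ) := hu.comp hφ.injective
  obtain ⟨N, hN⟩ : ∃ N, ∀ n, (u ∘ φ) (n + N) ≠ w := by
    by_cases h : ∃ n, (u ∘ φ) n = w
    · obtain ⟨n, hn⟩ := h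
      refine ⟨n + 1, fun m hm => ?_⟩
      have := h1 (hm.trans hn.symm)
      omega
    · exact ⟨0, fun n hn => h ⟨_, hn⟩⟩
  exact ⟨fun n => (u ∘ φ) (n + N), w, fun n => (hi.natEmbedding S _).2,
    h1.comp (add_left_injective N), hw, (tendsto_add_atTop_iff_nat N).2 hl, hN⟩

theorem ext_finite_of_seq {P : Set (ι → ℝ)} (hc : IsCompact P)
    (h : ∀ (v : ℕ → ι → ℝ) (w : ι → ℝ), (∀ n, v n ∈ P.extremePoints ℝ) → Function.Injective v →
      w ∈ P → Tendsto v atTop (𝓝 w) → ∃ n, ∃ y ∈ P, v n ∈ openSegment ℝ w y) :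
    (P.extremePoints ℝ).Finite := by
  by_contra hi
  obtain ⟨v, w, hv, hinj, hw, hl, hne⟩ := exists_seq hc extremePoints_subset hi
  obtain ⟨n, y, hy, hs⟩ := h v w hv hinj hw hl
  exact hne n ((hv n).2 hw hy hs).symm

/-- the local extension property gives finitely many extreme points -/
theorem ext_finite_of_delta {P : Set (ι → ℝ)} (hc : IsCompact P)
    (h : ∀ x ∈ P, ∃ δ > 0, ∀ y, ‖x - y‖ < δ → (openSegment ℝ x y ∩ P).Nonempty → y ∈ P) :
    (P.extremePoints ℝ).Finite := by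
  refine ext_finite_of_seq hc fun v w hv _ hw hl => ?_
  obtain ⟨δ, hδ, hd⟩ := h w hw
  obtain ⟨n, hn⟩ := Metric.tendsto_atTop.1 hl (δ / 2) (by positivity)
  have h1 := hn n le_rfl
  have h2 := mem_openSegment_push (v n) w one_pos
  refine ⟨n, _, hd _ ?_ ⟨v n, h2, (hv n).1⟩, h2⟩
  have e : w - (v n + (1 : ℝ) • (v n - w)) = (-2 : ℝ) • (v n - w) := by
    funext i
    simp only [Pi.sub_apply, Pi.add_apply, Pi.smul_apply, smul_eq_mul]
    ring
  rw [dist_eq_norm] at h1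
  rw [e, norm_smul, norm_neg, Real.norm_ofNat]
  linarith

theorem eq_hull_of_delta {P : Set (ι → ℝ)} (hc : IsCompact P) (hP : Convex ℝ P)
    (h : ∀ x ∈ P, ∃ δ > 0, ∀ y, ‖x - y‖ < δ → (openSegment ℝ x y ∩ P).Nonempty → y ∈ P) :
    ∃ T : Set (ι → ℝ), T.Finite ∧ P = convexHull ℝ T :=
  ⟨_, ext_finite_of_delta hc h, eq_hull_ext hc hP (ext_finite_of_delta hc h)⟩

/-- polyhedra have the local extension property -/
theorem RatPolyhedron.delta {P : Set (ι → ℝ)} (hP : RatPolyhedron P) {x : ι → ℝ} (hx : x ∈ P) :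
    ∃ δ > 0, ∀ y, ‖x - y‖ < δ → (openSegment ℝ x y ∩ P).Nonempty → y ∈ P := by
  obtain ⟨H, hH, hr, rfl⟩ := hP
  have key : ∀ h ∈ H, ∀ᶠ y in 𝓝 x, (openSegment ℝ x y ∩ {x | ∀ h ∈ H, h.1 ⬝ᵥ x ≤ h.2}).Nonempty →
      h.1 ⬝ᵥ y ≤ h.2 := by
    intro h hh
    rcases (hx h hh).eq_or_lt with h1 | h1
    · refine Eventually.of_forall ?_
      rintro y ⟨_, ⟨s, t, -, ht, hst, rfl⟩, hz⟩
      have h2 := hz h hh
      rw [dotProduct_add, dotProduct_smul, dotProduct_smul, smul_eq_mul, smul_eq_mul, h1] at h2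
      have h3 : t * h.1 ⬝ᵥ y ≤ t * h.2 := by
        have : s = 1 - t := by linarith
        rw [this] at h2
        linarith
      exact le_of_mul_le_mul_left h3 ht
    · exact (((ratAff_dot (hr h hh).1).continuous.tendsto x).eventually (gt_mem_nhds h1)).mono
        fun y hy _ => hy.le
  obtain ⟨δ, hδ, hd⟩ := Metric.eventually_nhds_iff.1 ((Filter.eventually_all_finite hH).2 key)
  exact ⟨δ, hδ, fun y hy hn h hh => hd (by rwa [dist_comm, dist_eq_norm]) h hh hn⟩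

/-- a rational inequality survives good approximation, uniformly in the point -/
theorem appr_le {a : ι → ℝ} {c : ℝ} (ha : IsRat a) (hc : ∃ q : ℚ, c = q) :
    ∃ δ > 0, ∀ x : ι → ℝ, a ⬝ᵥ x ≤ c → ∀ k : ℕ, 0 < k → ∀ y ∈ Appr x k δ, a ⬝ᵥ y ≤ c := by
  obtain ⟨q, hq, hi⟩ := exists_den (f := fun j : Option ι => j.elim c a) fun j => by
    cases j with
    | none => exact hc
    | some i => exact ha i
  have hq' : (0 : ℝ) < q := by exact_mod_cast hq
  have hS : 0 ≤ ∑ i, |a i| := Finset.sum_nonneg fun i _ => abs_nonneg _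
  refine ⟨1 / (q * (∑ i, |a i| + 1)), by positivity, ?_⟩
  rintro x hx k hk y ⟨m, hm, hy, hd⟩
  have hm' : (0 : ℝ) < m := by exact_mod_cast hm
  have hk' : (1 : ℝ) ≤ k := by exact_mod_cast hk
  have hia : IsInt ((q : ℝ) • a) := fun i => hi (some i)
  obtain ⟨z1, hz1⟩ := hia.dot hy
  obtain ⟨z2, hz2⟩ := hi none
  have hz2' : (q : ℝ) * c = z2 := hz2
  rw [smul_dotProduct, dotProduct_smul, smul_eq_mul, smul_eq_mul] at hz1
  have e1 : ((z1 - m * z2 : ℤ) : ℝ) = q * m * (a ⬝ᵥ y - c) := by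
    push_cast
    rw [← hz1, ← hz2']
    ring
  have e2 : ((z1 - m * z2 : ℤ) : ℝ) < 1 := by
    have h1 := abs_dot_le a (x - y)
    have h0 := neg_abs_le (a ⬝ᵥ (x - y))
    have h2 : ‖x - y‖ * (q * (∑ i, |a i| + 1) * (k * m)) < 1 := by
      rw [div_div, Nat.cast_mul] at hd
      exact (lt_div_iff₀ (by positivity)).1 hd
    have h5 : a ⬝ᵥ y - c ≤ (∑ i, |a i| + 1) * ‖x - y‖ := by
      rw [dotProduct_sub] at h0 h1
      nlinarith [norm_nonneg (x - y)]
    have h3 : q * m * (a ⬝ᵥ y - c) ≤ ‖x - y‖ * (q * (∑ i, |a i| + 1) * (1 * m)) :=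
      calc q * m * (a ⬝ᵥ y - c) ≤ q * m * ((∑ i, |a i| + 1) * ‖x - y‖) := by gcongr
        _ = _ := by ring
    have h4 : ‖x - y‖ * (q * (∑ i, |a i| + 1) * (1 * m)) ≤
        ‖x - y‖ * (q * (∑ i, |a i| + 1) * (k * m)) := by gcongr
    linarith
  have e3 : z1 - m * z2 ≤ 0 := by
    have : z1 - m * z2 < 1 := by exact_mod_cast e2
    omega
  have e4 : q * m * (a ⬝ᵥ y - c) ≤ 0 := by
    rw [← e1]
    exact_mod_cast e3
  by_contra hn
  exact absurd (mul_pos (mul_pos hq' hm') (sub_pos.2 (not_le.1 hn))) (not_lt.2 e4)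

/-- good approximations stay in a rational polyhedron, uniformly in the point -/
theorem RatPolyhedron.appr_unif {P : Set (ι → ℝ)} (hP : RatPolyhedron P) :
    ∃ δ > 0, ∀ x ∈ P, ∀ k : ℕ, 0 < k → Appr x k δ ⊆ P := by
  obtain ⟨H, hH, hr, rfl⟩ := hP
  choose! δ hδ hd using fun h hh => appr_le (hr h hh).1 (hr h hh).2
  obtain ⟨η, hη, hle⟩ : ∃ η > 0, ∀ h ∈ H, η ≤ δ h := by
    rcases H.eq_empty_or_nonempty with h0 | h0
    · exact ⟨1, one_pos, by simp [h0]⟩
    · obtain ⟨h, hh, hmin⟩ := Set.exists_min_image H δ hH h0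
      exact ⟨δ h, hδ h hh, hmin⟩
  exact ⟨η, hη, fun x hx k hk y hy h hh =>
    hd h hh x (hx h hh) k hk y (Appr.mono (hle h hh) hy)⟩

/-- a compact convex set containing all good approximations of its extreme points and of their
limits is a rational polytope -/
theorem ratPolytope_of_appr {P : Set (ι → ℝ)} (hc : IsCompact P) (hP : Convex ℝ P) {k : ℕ}
    (hk : 0 < k) {ε : ℝ} (hε : 0 < ε) (h : ∀ w ∈ P, Appr w k ε ⊆ P) : RatPolytope P := by
  have hr : ∀ x ∈ P.extremePoints ℝ, IsRat x := fun x hx =>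
    Appr.isRat (ext_mem_of_hull hP (h x hx.1) hx (dio x hk hε))
  refine ratPolytope_of_ext hc hP ?_ hr
  by_contra hi
  obtain ⟨v, w, hv, hinj, hw, hl, -⟩ := exists_seq hc extremePoints_subset hi
  have hk' : (0 : ℝ) < k := by exact_mod_cast hk
  obtain ⟨x, m, hm, hx, hd⟩ : (Appr w k ε).Nonempty :=
    convexHull_nonempty_iff.1 ⟨w, dio w hk hε⟩
  have hm' : (0 : ℝ) < m := by exact_mod_cast hm
  have hxP : x ∈ P := h w hw ⟨m, hm, hx, hd⟩
  have key : ∀ n, ‖v n - x‖ < ε / ((k * m : ℕ) : ℝ) → x = v n := by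
    intro n hn
    obtain ⟨q, hq, hqi⟩ := exists_den (hr _ (hv n))
    have hq' : (0 : ℝ) < q := by exact_mod_cast hq
    have hs := mem_openSegment_push (v n) x (t := m / ((q * (m + 1) - m : ℕ) : ℝ))
    have hle : m < q * (m + 1) := by nlinarith
    have hN : (0 : ℝ) < ((q * (m + 1) - m : ℕ) : ℝ) := by exact_mod_cast Nat.sub_pos_of_lt hle
    refine (hv n).2 hxP (h _ (hv n).1 ⟨q * (m + 1) - m, Nat.sub_pos_of_lt hle, ?_, ?_⟩)
      (hs (div_pos hm' hN))
    · refine (congrArg IsInt ?_).mp ((hqi.nsmul (m + 1)).sub hx)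
      rw [smul_add, smul_smul _ (_ / _), mul_div_cancel₀ _ hN.ne', Nat.cast_sub hle.le]
      funext i
      simp only [Pi.sub_apply, Pi.add_apply, Pi.smul_apply, smul_eq_mul]
      push_cast
      ring
    · rw [sub_add_cancel_left, norm_neg, norm_smul, Real.norm_of_nonneg (div_pos hm' hN).le,
        Nat.cast_mul k, ← div_div, div_mul_eq_mul_div]
      refine div_lt_div_of_pos_right ?_ hN
      rw [Nat.cast_mul, ← div_div, lt_div_iff₀ hm', mul_comm] at hn
      exact hn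
  have hev : ∀ᶠ n in atTop, ‖v n - x‖ < ε / ((k * m : ℕ) : ℝ) :=
    ((hl.sub_const x).norm).eventually (gt_mem_nhds hd)
  obtain ⟨n, hn⟩ := eventually_atTop.1 hev
  have := hinj ((key n (hn n le_rfl)).symm.trans (key (n + 1) (hn _ (Nat.le_succ n))))
  omega

/-- rational polytopes are characterised by stability under good approximation -/
theorem ratPolytope_iff_appr {P : Set (ι → ℝ)} {k : ℕ} (hk : 0 < k) :
    RatPolytope P ↔ IsCompact P ∧ Convex ℝ P ∧ ∃ ε > 0, ∀ w ∈ P, Appr w k ε ⊆ P := by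
  refine ⟨fun h => ⟨h.isCompact, h.convex, ?_⟩,
    fun ⟨h1, h2, _, hε, h3⟩ => ratPolytope_of_appr h1 h2 hk hε h3⟩
  obtain ⟨δ, hδ, hd⟩ := h.ratPolyhedron.appr_unif
  exact ⟨δ, hδ, fun w hw => hd w hw k hk⟩

end P277Z.Cvx
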